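import Vale.Agent.P167.H262.R0
import Vale.Agent.P167.H704.Q.Link

/-!
# P167, the range `0 < q < 1`: links to the banks of an explored strand

`link_w`: the form of `H704.Q.link` for `0 < Q ≤ 1`. `T` is a tube around the tip. With everything
outside of `T` of the colour `e`, an internal connection of colour `e` in `T` from `A` (other side of
the past) to `B` is at most as probable as a connection of the bank of colour `e` to `B` through the
fresh squares of the side of the bank, in every domain and for every configuration outside.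
-/

set_option autoImplicit false

namespace Vale.Agent.P167.N.H461

open Finset Relation Vale.Agent.P167 Vale.Agent.P167.FK Vale.Agent.P167.FKA
open Vale.Agent.P145.FB (PStep PConn)
open Vale.Agent.P167.H632 (cs cs_false pr)
open Vale.Agent.P167.H318 (St Pt0 st)
open Vale.Agent.P167.H704.Q (cst bk CU TOk mem_CU CU_sub cor_cases cu_val good_cst)
open Vale.Agent.P167.H262 (CI CD Pb Db rough_P rough_D)

variable {Q : ℝ} {e : Bool} {T L D E : Finset (ℤ × ℤ)} {η ω : Cfg} {A B A' B' : Set (ℤ × ℤ)}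

/-- `A` and `B` are joined by squares of `E` of the colour `e`. -/
def CE (e : Bool) (E : Finset (ℤ × ℤ)) (A B : Set (ℤ × ℤ)) : Set Cfg :=
  {ω | ∃ u ∈ A, ∃ v ∈ B, ReflTransGen (PStep (cs e ω ∩ ↑E)) u v}

/-- The sites of the colour `e` at the boundary of `E`. -/
def Bs (e : Bool) (E : Finset (ℤ × ℤ)) : Set (ℤ × ℤ) :=
  {s | (s.1 + s.2) % 2 = pr e ∧ ∃ v, v ∉ E ∧ Cor v s}

theorem CE_true : CE true E A B = CI E A B := rfl

theorem CE_false : CE false E A B = CD E A B := by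
  unfold CE CD
  simp only [cs_false]

theorem cor_even {v s : ℤ × ℤ} (h : Cor v s) (he : (s.1 + s.2) % 2 = 0) :
    s = FK.pa v ∨ s = FK.pb v := by
  obtain ⟨a, b⟩ := v
  obtain ⟨c, d⟩ := s
  unfold FK.pa FK.pb
  unfold Cor at h
  dsimp only at h he ⊢
  by_cases hp : Even (a + b)
  · simp only [hp, if_true, Prod.mk.injEq]
    rw [Int.even_iff] at hp
    omega
  · simp only [hp, if_false, Prod.mk.injEq]
    rw [Int.even_iff] at hp
    omega

theorem cor_odd {v s : ℤ × ℤ} (h : Cor v s) (he : (s.1 + s.2) % 2 = 1) :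
    s = FK.da v ∨ s = FK.db v := by
  obtain ⟨a, b⟩ := v
  obtain ⟨c, d⟩ := s
  unfold FK.da FK.db
  unfold Cor at h
  dsimp only at h he ⊢
  by_cases hp : Even (a + b)
  · simp only [hp, if_true, Prod.mk.injEq]
    rw [Int.even_iff] at hp
    omega
  · simp only [hp, if_false, Prod.mk.injEq]
    rw [Int.even_iff] at hp
    omega

theorem cor_da (v : ℤ × ℤ) : Cor v (FK.da v) ∧ ((FK.da v).1 + (FK.da v).2) % 2 = 1 := by
  unfold FK.da Cor
  by_cases h : Even (v.1 + v.2)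
  · rw [if_pos h]
    rw [Int.even_iff] at h
    try dsimp only
    omega
  · rw [if_neg h]
    rw [Int.even_iff] at h
    try dsimp only
    omega

theorem cor_db (v : ℤ × ℤ) : Cor v (FK.db v) ∧ ((FK.db v).1 + (FK.db v).2) % 2 = 1 := by
  unfold FK.db Cor
  by_cases h : Even (v.1 + v.2)
  · rw [if_pos h]
    rw [Int.even_iff] at h
    try dsimp only
    omega
  · rw [if_neg h]
    rw [Int.even_iff] at h
    try dsimp only
    omega

theorem Bs_Pb : Bs true E = Pb E := by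
  ext s
  constructor
  · rintro ⟨h1, v, hv, hc⟩
    exact ⟨v, hv, cor_even hc h1⟩
  · rintro ⟨v, hv, rfl | rfl⟩
    · exact ⟨Int.even_iff.1 (cor_pa v).2, v, hv, (cor_pa v).1⟩
    · exact ⟨Int.even_iff.1 (cor_pb v).2, v, hv, (cor_pb v).1⟩

theorem Bs_Db : Bs false E = Db E := by
  ext s
  constructor
  · rintro ⟨h1, v, hv, hc⟩
    exact ⟨v, hv, cor_odd hc h1⟩
  · rintro ⟨v, hv, rfl | rfl⟩
    · exact ⟨(cor_da v).2, v, hv, (cor_da v).1⟩
    · exact ⟨(cor_db v).2, v, hv, (cor_db v).1⟩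

/-- **Crossings with rough walls**, both colours. -/
theorem rough_E (hQ : 0 < Q) (hQ1 : Q ≤ 1) (hη : Good η)
    (hZ : ∀ s ∈ Bs e T, ∀ t ∈ Bs e T, ReflTransGen (PStep (↑T : Set (ℤ × ℤ))ᶜ) s t)
    (hA : A ⊆ Bs e T) (hB : B ⊆ Bs e T) (hAA : A ⊆ A') (hBB : B ⊆ B')
    (hL : ∀ v ∈ L, v ∈ T → (∀ s, Cor v s → (s.1 + s.2) % 2 = pr e → s ∈ A') ∨
      (∀ s, Cor v s → (s.1 + s.2) % 2 = pr e → s ∈ B')) (hD : T \ L ⊆ D) :
    Pr Q T (cst e) (CE e T A B) ≤ Pr Q D η (CE e (T \ L) A' B') := by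
  cases e
  · rw [CE_false, CE_false]
    rw [Bs_Db] at hA hB hZ
    refine rough_D hQ hQ1 hη (good_cst false) (fun s hs t ht _ _ => ?_) hA hB hAA hBB
      (fun v hv hvT => ?_) hD
    · refine Relation.ReflTransGen.mono (fun a b h => ?_) s t (hZ s hs t ht)
      refine ⟨h.1, h.2.1, ?_⟩
      show ¬ (cf T (cst false) T _ = true)
      rw [cf_out (fun h' => h.2.2 (Finset.mem_coe.2 h'))]
      simp [cst]
    · rcases hL v hv hvT with h | h
      · exact Or.inl ⟨h _ (cor_da v).1 (cor_da v).2, h _ (cor_db v).1 (cor_db v).2⟩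
      · exact Or.inr ⟨h _ (cor_da v).1 (cor_da v).2, h _ (cor_db v).1 (cor_db v).2⟩
  · rw [CE_true, CE_true]
    rw [Bs_Pb] at hA hB hZ
    refine rough_P hQ hQ1 hη (good_cst true) (fun s hs t ht _ _ => ?_) hA hB hAA hBB
      (fun v hv hvT => ?_) hD
    · refine Relation.ReflTransGen.mono (fun a b h => ?_) s t (hZ s hs t ht)
      refine ⟨h.1, h.2.1, ?_⟩
      show cf T (cst true) ∅ _ = true
      rw [cf_out (fun h' => h.2.2 (Finset.mem_coe.2 h'))]
      simp [cst]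
    · have e1 := Int.even_iff.1 (cor_pa v).2
      have e2 := Int.even_iff.1 (cor_pb v).2
      rcases hL v hv hvT with h | h
      · exact Or.inl ⟨h _ (cor_pa v).1 e1, h _ (cor_pb v).1 e2⟩
      · exact Or.inr ⟨h _ (cor_pa v).1 e1, h _ (cor_pb v).1 e2⟩

/-- The bank of colour `e` is joined to `B` by squares of `E` of the colour `e`. -/
def BK (e : Bool) (S : St) (E : Finset (ℤ × ℤ)) (B : Set (ℤ × ℤ)) : Set Cfg :=
  {ω | ∃ i ≤ S.m, ∃ v ∈ B, ReflTransGen (PStep (cs e ω ∩ ↑E)) (bk e (st S.e0 S.z i)) v}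

theorem BK_mono {S : St} (h : E ⊆ D) : BK e S E B ⊆ BK e S D B := by
  rintro ω ⟨i, hi, v, hv, hp⟩
  exact ⟨i, hi, v, hv, Relation.ReflTransGen.mono
    (fun a b h' => ⟨h'.1, h'.2.1, h'.2.2.1, Finset.mem_coe.2 (h (Finset.mem_coe.1 h'.2.2.2))⟩)
    _ _ hp⟩

/-- **Links to the banks**, for all configurations outside. -/
theorem link_w {S : St} {x h : ℤ} {u : ℤ × ℤ → ℤ} (hQ : 0 < Q) (hQ1 : Q ≤ 1) (hu : Pt0 S x h u)
    (hS : S.Ok) (hh : 1 ≤ h) (htip : hdv S.tip = (x, h - 1))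
    (hp : ∀ i ≤ S.m, u (ls (st S.e0 S.z i)) = u (rs (st S.e0 S.z i)) + 1) (hT : TOk S x h T)
    (hZ : ∀ s ∈ Bs e T, ∀ t ∈ Bs e T, ReflTransGen (PStep (↑T : Set (ℤ × ℤ))ᶜ) s t)
    (hA : A ⊆ Bs e T) (hB : B ⊆ Bs e T) (uA : ∀ s ∈ A, u s ≠ u (bk e S.tip))
    (uB : ∀ s ∈ B, u s = u (bk e S.tip)) (hη : Good η) (hD : CU e S T u ⊆ D) :
    Pr Q T (cst e) (CE e T A B) ≤ Pr Q D η (BK e S (CU e S T u) B) := by
  have e1 : T \ (T \ CU e S T u) = CU e S T u := Finset.sdiff_sdiff_eq_self CU_sub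
  have h1 := rough_E (L := T \ CU e S T u) (D := D) hQ hQ1 hη hZ hA hB
    (A' := {s | u s ≠ u (bk e S.tip)} ∪ {s | ∃ i ≤ S.m, s = bk e (st S.e0 S.z i)}) (B' := B)
    (fun s hs => Or.inl (uA s hs)) (Set.Subset.refl _) (fun v hv hvT => Or.inl fun s hs hse => ?_)
    (by rw [e1]; exact hD)
  · rw [e1] at h1
    refine h1.trans (Pr_mono hQ ?_)
    rintro ω ⟨s, hs, v, hv, hpath⟩
    have key : u s = u (bk e S.tip) := by
      rcases Relation.ReflTransGen.cases_head hpath with h2 | ⟨s1, h2, -⟩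
      · rw [h2]
        exact uB v hv
      · exact cu_val hu hS hh htip hT (Finset.mem_coe.1 h2.2.2.2) (cor_of_step h2).1
    rcases hs with hs | ⟨i, hi, rfl⟩
    · exact absurd key hs
    · exact ⟨i, hi, v, hv, hpath⟩
  · by_cases us : u s = u (bk e S.tip)
    · right
      exact (cor_cases hu hS hh htip hp hT hvT hs hse us).resolve_left (Finset.mem_sdiff.1 hv).2
    · exact Or.inl us

end Vale.Agent.P167.N.H461
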