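import Vale.Agent.P167.H704.Q.MassB
import Vale.Agent.P167.H685.Q.RecT
import Vale.Agent.P167.H685.Q.Det4

/-!
# P167, the range `0 < q < 1`, GREF: translation, the next state, strong Markov property
-/

set_option autoImplicit false

namespace Vale.Agent.P167.N.H461

open Finset Vale.Agent.P145.FB Vale.Agent.P167 Vale.Agent.P167.FK Vale.Agent.P167.FKA
open Vale.Agent.P167.H318 (St TA TB Flat PO Lo HB ex hit Visit RV_path stopSet_RV mem_RV RV_notMem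
  rv_ok)
open Vale.Agent.P167.H318.UQ (Rc mem_Rc Oc Dc Cq Aq Gt Te Tw ArE ArW Ctr)
open Vale.Agent.P167.H685.Q (EQ PQ Gq TC hbF mem_hbF Cs PastS Zone RV_cf EQ_stop EQ_mono
  EQ_mul rv_int gq_rv hit_tr ex_tr st_tr hdv_tr Ex_tr)
open Vale.Agent.P167.H166Q (GE nxt)
open Vale.Agent.P167.H704.Q (zone_of)

variable {Q : ℝ} {S : St} {l x y ρ n : ℤ} {ω ω' : Cfg}

/-! ### translation -/

/-- the translated configuration -/
def tc (a : ℤ) (ω : Cfg) : Cfg := ω ∘ fun v => (v.1 + (a, (0 : ℤ)).1, v.2 + (a, (0 : ℤ)).2)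

theorem pc_tr {a : ℤ} {F F' : Set (ℤ × ℤ)} (h : ∀ w ∈ F, ((w.1 - a, w.2) : ℤ × ℤ) ∈ F')
    {s t : ℤ × ℤ} (hc : PConn F Set.univ s t) :
    PConn F' Set.univ (s.1 - a, s.2) (t.1 - a, t.2) := by
  refine ⟨Set.mem_univ _, ?_⟩
  have h1 := hc.2
  induction h1 with
  | refl => exact Relation.ReflTransGen.refl
  | @tail b c _ hbc ih =>
    refine (ih ⟨Set.mem_univ _, by assumption⟩).tail ⟨⟨?_, ?_, ?_⟩, Set.mem_univ _⟩
    · have := hbc.1.1
      dsimp only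
      omega
    · have := hbc.1.2.1
      dsimp only
      omega
    · have h3 := h _ hbc.1.2.2
      dsimp only at h3 ⊢
      have e1 : min (b.1 - a) (c.1 - a) = min b.1 c.1 - a := by omega
      rw [e1]
      exact h3

theorem tc_apply {a : ℤ} {w : ℤ × ℤ} : tc a ω (w.1 - a, w.2) = ω w := by
  show ω (w.1 - a + a, w.2 + 0) = ω w
  congr 1
  exact Prod.ext (by dsimp only; omega) (by dsimp only; omega)

theorem oc_tr {a : ℤ} {A A' : Finset (ℤ × ℤ)} (h : ∀ w ∈ A, ((w.1 - a, w.2) : ℤ × ℤ) ∈ A')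
    {s t : ℤ × ℤ} (hc : Oc A ω s t) : Oc A' (tc a ω) (s.1 - a, s.2) (t.1 - a, t.2) := by
  refine pc_tr ?_ hc
  rintro w ⟨h1, h2⟩
  exact ⟨by
    show tc a ω _ = true
    rw [tc_apply]
    exact h1, Finset.mem_coe.2 (h w (Finset.mem_coe.1 h2))⟩

theorem dc_tr {a : ℤ} {A A' : Finset (ℤ × ℤ)} (h : ∀ w ∈ A, ((w.1 - a, w.2) : ℤ × ℤ) ∈ A')
    {s t : ℤ × ℤ} (hc : Dc A ω s t) : Dc A' (tc a ω) (s.1 - a, s.2) (t.1 - a, t.2) := by
  refine pc_tr ?_ hc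
  rintro w ⟨h1, h2⟩
  exact ⟨by
    show ¬ tc a ω _ = true
    rw [tc_apply]
    exact h1, Finset.mem_coe.2 (h w (Finset.mem_coe.1 h2))⟩

theorem mem_Aq0 {K3 K x n : ℤ} {v : ℤ × ℤ} : v ∈ Aq K3 K x n ↔
    (x - K * n ≤ v.1 ∧ v.1 ≤ x + K * n ∧ 0 ≤ v.2 ∧ v.2 ≤ K * n) ∧
    ¬ ((x - K3 * n ≤ v.1 ∧ v.1 ≤ x + K3 * n) ∧ 0 ≤ v.2 ∧ v.2 ≤ 4 * n - 1) := by
  unfold Aq Cq
  rw [Finset.mem_sdiff, mem_hbF, mem_Rc]
  rfl

theorem ge_tr {K3 K x n l' a : ℤ} (ha : Even a) (h : ω ∈ GE K3 K (x + a) n l') :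
    tc a ω ∈ GE K3 K x n l' := by
  have hp : Even ((a, (0 : ℤ)).1 + (a, (0 : ℤ)).2) := by simpa using ha
  have hAq : ∀ w ∈ Aq K3 K (x + a) n, ((w.1 - a, w.2) : ℤ × ℤ) ∈ Aq K3 K x n := by
    intro w hw
    rw [mem_Aq0] at hw ⊢
    dsimp only
    omega
  have hTe : ∀ w ∈ Te K (x + a) n, ((w.1 - a, w.2) : ℤ × ℤ) ∈ Te K x n := by
    intro w hw
    unfold Te at hw ⊢
    rw [mem_Rc] at hw ⊢
    dsimp only
    omega
  have hTw : ∀ w ∈ Tw K (x + a) n, ((w.1 - a, w.2) : ℤ × ℤ) ∈ Tw K x n := by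
    intro w hw
    unfold Tw at hw ⊢
    rw [mem_Rc] at hw ⊢
    dsimp only
    omega
  have hFe : ∀ w ∈ (Aq K3 K (x + a) n ∪ Te K (x + a) n).filter (fun v => n ≤ v.2),
      ((w.1 - a, w.2) : ℤ × ℤ) ∈ (Aq K3 K x n ∪ Te K x n).filter fun v => n ≤ v.2 := by
    intro w hw
    rw [Finset.mem_filter, Finset.mem_union] at hw ⊢
    exact ⟨hw.1.imp (hAq w) (hTe w), hw.2⟩
  have hFw : ∀ w ∈ (Aq K3 K (x + a) n ∪ Tw K (x + a) n).filter (fun v => n ≤ v.2),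
      ((w.1 - a, w.2) : ℤ × ℤ) ∈ (Aq K3 K x n ∪ Tw K x n).filter fun v => n ≤ v.2 := by
    intro w hw
    rw [Finset.mem_filter, Finset.mem_union] at hw ⊢
    exact ⟨hw.1.imp (hAq w) (hTw w), hw.2⟩
  obtain ⟨e, ⟨⟨y, rfl, hy, hyx⟩, ⟨p1, p2, p3, p4⟩, q1, q2, q3, q4⟩, ⟨b1, h8, h9⟩, ⟨b2, h10, h11⟩,
    h12, h13⟩ := h
  have hyp : Even (y + (4 * n - 1)) := by
    rw [Int.odd_iff] at hy
    rw [Int.even_iff]
    omega
  have hyp' : Even (y - a + (4 * n - 1)) := by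
    rw [Int.odd_iff] at hy
    rw [Int.even_iff] at ha ⊢
    omega
  have els : ls (Sum.inr (y - a, 4 * n - 1)) =
      ((ls (Sum.inr (y, 4 * n - 1))).1 - a, (ls (Sum.inr (y, 4 * n - 1))).2) := by
    simp only [ls, hyp, hyp', if_true]
    refine Prod.ext ?_ rfl
    dsimp only
    omega
  have ers : rs (Sum.inr (y - a, 4 * n - 1)) =
      ((rs (Sum.inr (y, 4 * n - 1))).1 - a, (rs (Sum.inr (y, 4 * n - 1))).2) := by
    simp only [rs, hyp, hyp', if_true]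
  have hD : (hbF (x + a) (K * n)).image (trV (a, 0)) = hbF x (K * n) := by
    ext v
    rw [H685.Q.mem_trV, mem_hbF, mem_hbF]
    show (_ ∧ _ ∧ _ ∧ _) ↔ (_ ∧ _ ∧ _ ∧ _)
    dsimp only
    constructor <;> rintro ⟨a1, a2, a3, a4⟩ <;> exact ⟨by omega, by omega, by omega, by omega⟩
  have hE : trE (a, 0) (Sum.inr (y, 4 * n - 1)) = Sum.inr (y - a, 4 * n - 1) := by
    simp [trE]
  have h14 := hit_tr hp (hbF (x + a) (K * n)) (Sum.inr (y, 4 * n - 1))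
    (Lo (x + a) (K * n) (4 * l')) (Lo x (K * n) (4 * l')) ω fun v => by
      show (_ ∧ _ ∧ _ ∧ _) ↔ (_ ∧ _ ∧ _ ∧ _)
      simp only [trV, Equiv.coe_fn_mk]
      constructor <;> rintro ⟨a1, a2, a3, a4⟩ <;> exact ⟨by omega, by omega, by omega, by omega⟩
  have h15 := ex_tr hp (hbF (x + a) (K * n)) (Sum.inr (y, 4 * n - 1)) ω
  rw [hD, hE] at h14 h15
  refine ⟨Sum.inr (y - a, 4 * n - 1), ⟨⟨y - a, rfl, ?_, ?_⟩,
    ⟨(p1.1 - a, p1.2), p2, by dsimp only; omega, by rw [els]; exact oc_tr hAq p4⟩,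
    ⟨(q1.1 - a, q1.2), q2, by dsimp only; omega, by rw [ers]; exact dc_tr hAq q4⟩⟩,
    ⟨(b1.1 - a, b1.2), by dsimp only; omega, by rw [els]; exact oc_tr hFe h9⟩,
    ⟨(b2.1 - a, b2.2), by dsimp only; omega, by rw [ers]; exact dc_tr hFw h11⟩, ?_⟩
  · rw [Int.odd_iff] at hy ⊢
    rw [Int.even_iff] at ha
    omega
  · rwa [show y - a - x = y - (x + a) by ring]
  · show hit (hbF x (K * n)) (Sum.inr (y - a, 4 * n - 1)) (Lo x (K * n) (4 * l')) (tc a ω) < _ ∧ _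
    rw [show hit (hbF x (K * n)) (Sum.inr (y - a, 4 * n - 1)) (Lo x (K * n) (4 * l')) (tc a ω) = _
      from h14, show ex (hbF x (K * n)) (Sum.inr (y - a, 4 * n - 1)) (tc a ω) = _ from h15]
    refine ⟨h12, ?_⟩
    have h16 := st_tr hp (Sum.inr (y, 4 * n - 1)) ω
      (hit (hbF (x + a) (K * n)) (Sum.inr (y, 4 * n - 1)) (Lo (x + a) (K * n) (4 * l')) ω)
    rw [hE] at h16
    rw [show H318.st (Sum.inr (y - a, 4 * n - 1)) (tc a ω) _ = _ from h16, hdv_tr hp]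
    simp only [trV, Equiv.coe_fn_mk]
    rwa [show ∀ b : ℤ, b - a - x = b - (x + a) from fun b => by ring]

/-- the reference probability does not depend on the centre -/
theorem pr_ge_tr (hQ : 0 < Q) {K3 K x n l' a k : ℤ} (ha : Even a) :
    Pr Q (hbF (x + a) k) eta0 (GE K3 K (x + a) n l') ≤ Pr Q (hbF x k) eta0 (GE K3 K x n l') := by
  have hp : Even ((a, (0 : ℤ)).1 + (a, (0 : ℤ)).2) := by simpa using ha
  have hD : (hbF (x + a) k).image (trV (a, 0)) = hbF x k := by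
    ext v
    rw [H685.Q.mem_trV, mem_hbF, mem_hbF]
    show (_ ∧ _ ∧ _ ∧ _) ↔ (_ ∧ _ ∧ _ ∧ _)
    dsimp only
    constructor <;> rintro ⟨a1, a2, a3, a4⟩ <;> exact ⟨by omega, by omega, by omega, by omega⟩
  have h1 := Ex_tr (p := (a, 0)) hQ hp (hbF (x + a) k) f_good.2.1 ((GE K3 K x n l').indicator 1)
  rw [hD] at h1
  have h2 : Pr Q (hbF x k) eta0 (GE K3 K x n l') = Ex Q (hbF (x + a) k) eta0
    (fun ω => (GE K3 K x n l').indicator 1 (tc a ω)) := h1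
  rw [h2]
  refine Ex_mono hQ fun T _ => ?_
  generalize cf (hbF (x + a) k) eta0 T = o
  by_cases h3 : o ∈ GE K3 K (x + a) n l'
  · rw [Set.indicator_of_mem h3, Set.indicator_of_mem (ge_tr ha h3)]
    rfl
  · rw [Set.indicator_of_notMem h3]
    exact ind_nonneg _ _

/-! ### the next state -/

theorem tcrv1 {ρ2 : ℤ} (hn : 1 ≤ n) (hnl : n ≤ l) (hρ : 4 * l ≤ ρ) (hS : TC S l x ρ)
    (hω : ∀ v, v ∉ S.F → ω v = S.z v)
    (hH : H318.st S.e0 ω (hit S.D S.e0 (Lo x ρ (4 * n)) ω) = Sum.inr (y, 4 * n - 1))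
    (hyx : |y - x| + ρ2 ≤ ρ) (h4 : 1 ≤ ρ2) : TC (nxt S x ρ n ω) n y ρ2 := by
  have hZ := zone_of hS hn hnl hρ
  have hXe : S.X1 (Lo x ρ (4 * n)) ω = Sum.inr (y, 4 * n - 1) := by
    show H318.st S.e0 (S.cf ω) (hit S.D S.e0 (Lo x ρ (4 * n)) (S.cf ω)) = _
    rw [H685.Q.Det.cf_self hω]
    exact hH
  have hyx' : y - x ≤ ρ - ρ2 ∧ x - y ≤ ρ - ρ2 := by
    have h1 := le_abs_self (y - x)
    have h2 := neg_abs_le (y - x)
    omega
  have hev : Even (y + (4 * n - 1)) := by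
    by_contra hev
    have h2 := H318.Bs.hit_spec hS.st (Lo x ρ (4 * n)) ω
    rw [hH] at h2
    simp only [hdv, hev, if_false] at h2
    rcases h2 with h2 | h2
    · have h3 := h2.2.2.2
      dsimp only at h3
      omega
    · exact h2 (hS.flat'.mem _ ⟨by dsimp only; omega, by dsimp only; omega, by dsimp only; omega,
        by dsimp only; omega⟩)
  obtain ⟨-, htip, hPO⟩ := rv_int hS.toOk (A := Lo x ρ (4 * n)) (fun v hv => hZ.fr v hv) ω
  have hlow : ∀ v : ℤ × ℤ, v ∈ Lo y ρ2 (4 * n) → v ∈ Lo x ρ (4 * n) := fun v hv => by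
    obtain ⟨h1, h2, h3, h4'⟩ := hv
    exact ⟨by omega, by omega, h3, h4'⟩
  exact
    { toOk := rv_ok hS.toOk _ ω
      flat := ⟨fun q hq => hS.sub (hZ.fr _ (hlow q hq)), fun a h1 h2 =>
        hS.flat'.not a (by omega) (by omega)⟩
      fresh := fun q hq => Finset.mem_sdiff.2 ⟨hZ.fr _ (hlow q hq), fun h =>
        RV_notMem h (hlow q hq)⟩
      flat' := ⟨fun q hq => hS.flat'.mem q ⟨by have := hq.1; omega, by have := hq.2.1; omega,
        hq.2.2.1, by have := hq.2.2.2; omega⟩, fun a h1 h2 => hS.flat'.not a (by omega) (by omega)⟩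
      po := fun q hq => hPO _ hS.po q ⟨by have := hq.1; omega, by have := hq.2.1; omega,
        hq.2.2.1, by have := hq.2.2.2; omega⟩
      tip := by
        show (S.rv (S.RV (Lo x ρ (4 * n)) ω) ω).tip = _
        rw [htip, hXe]
      ev := hev
      gq := gq_rv (H685.Q.Gq.mono hS.gq (by omega) (by omega)) _ _ }

/-- **Strong Markov property** at the entrance, for an event of the past -/
theorem stop_nxt (hQ : 0 < Q) (hS : tlv S.e0 ∉ S.D) (hz : Good S.z) {E H : Set Cfg} {c : ℝ}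
    (hpast : ∀ ω ω', Cs S ω → Cs S ω' →
      hit S.D S.e0 (Lo x ρ (4 * n)) ω' = hit S.D S.e0 (Lo x ρ (4 * n)) ω →
      (∀ i ≤ hit S.D S.e0 (Lo x ρ (4 * n)) ω, H318.st S.e0 ω' i = H318.st S.e0 ω i) →
      (ω' ∈ H ↔ ω ∈ H))
    (h : ∀ ω, Cs S ω → ω ∈ H → c ≤ PQ Q (nxt S x ρ n ω) E) :
    c * PQ Q S H ≤ PQ Q S E := by
  have hY : PastS S (S.RV (Lo x ρ (4 * n))) (H.indicator 1) := by
    intro ω ω' hω hω' h3
    obtain ⟨h1, h2⟩ := RV_path hS (A := Lo x ρ (4 * n)) (ω := ω) (ω' := ω') h3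
    rw [Cs.cf hω, Cs.cf hω'] at h1 h2
    have h4 := hpast ω ω' hω hω' h2 h1
    by_cases h5 : ω ∈ H
    · rw [Set.indicator_of_mem h5, Set.indicator_of_mem (h4.2 h5)]
      rfl
    · rw [Set.indicator_of_notMem h5, Set.indicator_of_notMem fun h => h5 (h4.1 h)]
  have h1 := EQ_stop hQ hz (stopSet_RV hS (Lo x ρ (4 * n))) (RV_cf (Lo x ρ (4 * n))) hY
    (E.indicator 1)
  have h2 : EQ Q S (fun ω => H.indicator 1 ω * E.indicator 1 ω) ≤ PQ Q S E := by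
    refine EQ_mono hQ fun ω _ => ?_
    have := ind_le_one H ω
    have := ind_nonneg E ω
    nlinarith
  have h3 : c * PQ Q S H ≤ EQ Q S (fun ω => H.indicator 1 ω *
      EQ Q (S.rv (S.RV (Lo x ρ (4 * n)) ω) ω) (E.indicator 1)) := by
    show c * EQ Q S (H.indicator 1) ≤ _
    rw [← EQ_mul]
    refine EQ_mono hQ fun ω hω => ?_
    by_cases h5 : ω ∈ H
    · rw [Set.indicator_of_mem h5]
      have := h ω hω h5
      simp only [Pi.one_apply, mul_one, one_mul]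
      exact this
    · rw [Set.indicator_of_notMem h5]
      simp
  exact h3.trans (h1.symm.le.trans h2)

end Vale.Agent.P167.N.H461
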