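import Vale.Agent.P167.N.H461.GrefA
import Vale.Agent.P167.N.H192.Q.RatB
import Vale.Agent.P167.H950.Q.Ent

/-!
# P167, the range `0 < q < 1`, GREF: a state with a low tip, comparison with the reference box
-/

set_option autoImplicit false

namespace Vale.Agent.P167.N.H461

open Finset Vale.Agent.P145.FB Vale.Agent.P167 Vale.Agent.P167.FK Vale.Agent.P167.FKA
open Vale.Agent.P153 Vale.Agent.P153.Topo Vale.Agent.P167.H632
open Vale.Agent.P167.H318 (St TA TB Flat PO Lo HB ex hit)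
open Vale.Agent.P167.H685.Q (EQ PQ Gq TC hbF mem_hbF)
open Vale.Agent.P167.H166Q (GE nxt)
open Vale.Agent.P167.N.MIX (RatS)

variable {Q : ℝ} {S : St} {l l1 x y ρ n : ℤ} {ω ω' : Cfg}

/-- the zigzag -/
theorem zig {F R : Set (ℤ × ℤ)} {a b h : ℤ} (hab : b = a + 1 ∨ b = a - 1) (m : ℕ)
    (hF : ∀ j : ℤ, h ≤ j → j < h + 2 * m → ((min a b, j) : ℤ × ℤ) ∈ F)
    (hR : ∀ j : ℤ, h ≤ j → j ≤ h + 2 * m → ((a, j) : ℤ × ℤ) ∈ R ∧ ((b, j) : ℤ × ℤ) ∈ R) :
    PConn F R (a, h) (a, h + 2 * m) := by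
  induction m with
  | zero =>
    have h1 : h + 2 * ((0 : ℕ) : ℤ) = h := by simp
    rw [h1]
    exact PConn.refl (hR h le_rfl (by simp)).1
  | succ m ih =>
    have h0 := ih (fun j h1 h2 => hF j h1 (by push_cast; omega))
      (fun j h1 h2 => hR j h1 (by push_cast; omega))
    have s1 : PStep F (a, h + 2 * (m : ℤ)) (b, h + 2 * m + 1) := by
      refine ⟨by dsimp only; omega, by dsimp only; omega, ?_⟩
      have e1 : min (h + 2 * (m : ℤ)) (h + 2 * m + 1) = h + 2 * m := by omega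
      dsimp only
      rw [e1]
      exact hF _ (by omega) (by push_cast; omega)
    have s2 : PStep F (b, h + 2 * (m : ℤ) + 1) (a, h + 2 * m + 2) := by
      refine ⟨by dsimp only; omega, by dsimp only; omega, ?_⟩
      have e1 : min (h + 2 * (m : ℤ) + 1) (h + 2 * m + 2) = h + 2 * m + 1 := by omega
      dsimp only
      rw [e1, min_comm b a]
      exact hF _ (by omega) (by push_cast; omega)
    have h1 := (h0.tail s1 (hR _ (by omega) (by push_cast; omega)).2).tail s2
      (hR _ (by omega) (by push_cast; omega)).1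
    have e : h + 2 * ((m + 1 : ℕ) : ℤ) = h + 2 * m + 2 := by push_cast; ring
    rw [e]
    exact h1

/-- **a state with a lower tip above the same point** -/
theorem exists_low (hS : TC S l x ρ) (h1 : 1 ≤ l1) (hl : l1 < l) (hρ : 20 * l ≤ ρ) :
    ∃ S1 : St, TC S1 l1 x ρ := by
  classical
  obtain ⟨ω, hωd⟩ : ∃ ω : Cfg, ω = fun v => if v ∈ S.F then decide (x < v.1) else S.z v := ⟨_, rfl⟩
  have hω : ∀ v, v ∉ S.F → ω v = S.z v := fun v hv => by rw [hωd]; simp only [hv, if_false]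
  have hev := hS.ev
  rw [Int.even_iff] at hev
  have hin : ∀ a j : ℤ, x - 4 ≤ a → a ≤ x + 4 → 4 * l1 ≤ j → j < 4 * l → ((a, j) : ℤ × ℤ) ∈ S.F :=
    fun a j a1 a2 a3 a4 => hS.fresh _ ⟨by dsimp only; omega, by dsimp only; omega,
      by dsimp only; omega, by dsimp only; omega⟩
  obtain ⟨m, hm⟩ : ∃ m : ℕ, (m : ℤ) = 2 * l - 2 * l1 := ⟨(2 * l - 2 * l1).toNat, by
    rw [Int.toNat_of_nonneg (by omega)]⟩
  have hls : ls (H318.st S.e0 S.z S.m) = (x + 1, 4 * l1 + 2 * m) := by
    have h2 : H318.st S.e0 S.z S.m = Sum.inr (x, 4 * l - 1) := hS.tip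
    rw [h2]
    have h3 : Even (x + (4 * l - 1)) := hS.ev
    simp only [ls, h3, if_true]
    refine Prod.ext rfl ?_
    dsimp only
    omega
  have hrs : rs (H318.st S.e0 S.z S.m) = (x, 4 * l1 + 2 * m) := by
    have h2 : H318.st S.e0 S.z S.m = Sum.inr (x, 4 * l - 1) := hS.tip
    rw [h2]
    have h3 : Even (x + (4 * l - 1)) := hS.ev
    simp only [rs, h3, if_true]
    refine Prod.ext rfl ?_
    dsimp only
    omega
  obtain ⟨y, y1, y2, y3⟩ := H950.Q.enter (S := S) (u := x) (w := ρ) (l := l) (H := ρ + 1) (x := x)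
    (h0 := 4 * l1) (ξ := ω) (a := (x + 1, 4 * l1)) (a' := (x, 4 * l1)) hS.toTB (by omega)
    (by omega) (by omega) (by omega) (by omega) (by omega) hω rfl rfl
    (by rw [Int.even_iff]; dsimp only; omega) (by rw [Int.odd_iff]; dsimp only; omega)
    (by dsimp only; omega) (by dsimp only; omega) (by dsimp only; omega)
    ⟨S.m, le_rfl, by
      rw [hls]
      refine zig (b := x + 1 + 1) (Or.inl rfl) m (fun j j1 j2 => ?_) (fun j j1 j2 => ?_)
      · show ω _ = true
        have e1 : min (x + 1) (x + 1 + 1) = x + 1 := by omega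
        rw [e1, hωd]
        have h2 := hin (x + 1) j (by omega) (by omega) (by omega) (by omega)
        simp only [h2, if_true]
        exact decide_eq_true (by omega)
      · rw [mem_rect, mem_rect]
        dsimp only
        omega⟩
    ⟨S.m, le_rfl, by
      rw [hrs]
      refine zig (b := x - 1) (Or.inr rfl) m (fun j j1 j2 => ?_) (fun j j1 j2 => ?_)
      · show ¬ ω _ = true
        have e1 : min x (x - 1) = x - 1 := by omega
        rw [e1, hωd]
        have h2 := hin (x - 1) j (by omega) (by omega) (by omega) (by omega)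
        simp only [h2, if_true]
        rw [decide_eq_true_iff]
        omega
      · rw [mem_rect, mem_rect]
        dsimp only
        omega⟩
  have hyx : y = x := by
    dsimp only at y1 y2
    omega
  rw [hyx] at y3
  exact ⟨_, tcrv1 (ρ2 := ρ) h1 hl.le (by omega) hS hω y3 (by simp) (by omega)⟩

/-- **Comparison of a state with the reference box around a point of the side** -/
theorem ref_off (hQ : Kit Q) {L b r K0 : ℤ} (hL : RatS Q L) (hr : 1 ≤ r)
    (hK0 : L * (L * (r + 1)) ≤ K0) (hl : L * (L * (r + 1)) ≤ 4 * l)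
    (hρ : |b - x| + L * (L * (r + 1)) ≤ ρ) (hS : TC S l x ρ) {F : Cfg → ℝ} (hF0 : ∀ ω, 0 ≤ F ω)
    (hF : Loc (hbF b r) F) : Ex Q S.F S.z F ≤ 8 * Ex Q (hbF b K0) eta0 F := by
  have hL2 := hL.two
  obtain ⟨R, hR⟩ : ∃ R, R = L * (L * (r + 1)) := ⟨_, rfl⟩
  rw [← hR] at hK0 hl hρ
  have k1 : r + 1 ≤ L * (r + 1) := by nlinarith
  have k2 : L * (r + 1) ≤ R := by
    rw [hR]
    nlinarith
  have hbx : b - x ≤ ρ - R ∧ x - b ≤ ρ - R := by
    have h1 := le_abs_self (b - x)
    have h2 := neg_abs_le (b - x)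
    omega
  have hbq : ∀ v ∈ Bq (b, 0) R, (v ∈ hbF b K0 ↔ 0 ≤ v.2) ∧ (v ∈ S.F ↔ 0 ≤ v.2) ∧
      (v.2 < 0 → S.z v = false) := by
    intro v hv
    rw [H167.Q.mem_Bq] at hv
    dsimp only at hv
    refine ⟨?_, ⟨fun h => ?_, fun h => ?_⟩, fun h => ?_⟩
    · rw [mem_hbF]
      simp only [H318.HB, Set.mem_ofPred_eq]
      omega
    · by_contra hc
      exact (hS.gq.row v (by omega) (by omega) (by omega) (by omega)).1 h
    · exact hS.fresh v ⟨by omega, by omega, h, by omega⟩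
    · exact (hS.gq.row v (by omega) (by omega) (by omega) (by omega)).2
  have hV : hbF b r ⊆ Bq (b, 0) (r + 1) := by
    intro v hv
    rw [mem_hbF] at hv
    simp only [H318.HB, Set.mem_ofPred_eq] at hv
    rw [H167.Q.mem_Bq]
    dsimp only
    omega
  have hDD : S.F ∩ Bq (b, 0) R = hbF b K0 ∩ Bq (b, 0) R := by
    ext v
    rw [Finset.mem_inter, Finset.mem_inter]
    constructor
    · rintro ⟨h1, h2⟩
      exact ⟨(hbq v h2).1.2 ((hbq v h2).2.1.1 h1), h2⟩
    · rintro ⟨h1, h2⟩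
      exact ⟨(hbq v h2).2.1.2 ((hbq v h2).1.1 h1), h2⟩
  have hV2 : hbF b r ⊆ S.F := by
    intro v hv
    have h1 : v ∈ Bq (b, 0) R := H167.Q.bq_mono (by omega) (hV hv)
    refine (hbq v h1).2.1.2 ?_
    rw [mem_hbF] at hv
    exact hv.2.2.1
  have f1 : H192.Q.Fr (b, 0) R (hbF b K0) eta0 := fun v _ _ => rfl
  have f2 : H192.Q.Fr (b, 0) R S.F S.z := fun v hv hvD => by
    have h1 := hbq v hv
    exact h1.2.2 (by
      by_contra hc
      exact hvD (h1.2.1.2 (by omega)))
  have g2 : H635.Shp S.F (b, 0) (r + 1) R :=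
    H635.shp_ge2 (c := 0) fun v hv => (hbq v (H635.ann_box hv)).2.1
  exact N.H192.Q.rat_bdy_dom (x := (b, 0)) (r := r + 1) (R := R) hQ hL (by omega) hR.symm.le hDD hV2
    hV hF0 hF hS.gq.good f_good.2.1 f2 f1 g2

end Vale.Agent.P167.N.H461
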