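import Vale.Agent.P167.N.H461.GrefA
import Vale.Agent.P167.N.H685.Q.Det
import Vale.Agent.P167.H365.NDet

/-!
# P167, the range `0 < q < 1`, GREF: the gate at a window without return (deterministic)
-/

set_option autoImplicit false

namespace Vale.Agent.P167.N.H461

open Finset Vale.Agent.P145.FB Vale.Agent.P153 Vale.Agent.P153.Topo Vale.Agent.P167
  Vale.Agent.P167.H632 Vale.Agent.P167.H871 Vale.Agent.P167.H704 Vale.Agent.P167.FK
  Vale.Agent.P167.FKA Vale.Agent.P167.H704.Q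
open Vale.Agent.P167.H318 (St TB Lo Pt0 Cl0 FlatAt st hs_notF hit ex Visit st_m rv_m RV_notMem)
open Vale.Agent.P167.H318.UQ (Rc mem_Rc Oc Dc Cq Aq Gt Te Tw ArE ArW An LB RB Ctr)
open Vale.Agent.P167.H685.Q (TC hbF mem_hbF Cs)
open Vale.Agent.P167.H166Q (K4 HT nxt OArcW DArcW)
open Vale.Agent.P167.H685.Q.Det (ArcW Wn arc_win al be mem_An mem_Aq tip_strand cf_self nxt_st
  strand_path cor_bk)
open Vale.Agent.P167.N.H166Q (Far TL fe)
open Vale.Agent.P167.N.H685.Q.Det (arms ctr_tc)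
open Relation

variable {S : St} {x y n ρ r R R' l l' K3 K Λ b : ℤ} {c : Bool} {ω ξ : Cfg} {s : Pt} {e : Ed}

/-- **no return**: after a visit of the small box the strand stays in the large box until the time
`N` -/
def NR (S : St) (N : ℕ) (b r R : ℤ) (ω : Cfg) : Prop :=
  ∀ i, S.m ≤ i → i ≤ N → hdv (st S.e0 ω i) ∈ H318.HB b r →
    ∀ k, i ≤ k → k ≤ N → hdv (st S.e0 ω k) ∈ H318.HB b R

/-- **the bank sites near the tip are joined to the tip** -/
theorem bank_near' (hT : TC S l x ρ) (hn : 1 ≤ n) (hnl : n ≤ l)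
    (hω : ∀ v, v ∉ S.F → ω v = S.z v)
    (hH : st S.e0 ω (hit S.D S.e0 (Lo x ρ (4 * n)) ω) = Sum.inr (y, 4 * n - 1))
    (hξ : ∀ v, v ∉ (nxt S x ρ n ω).F → ξ v = (nxt S x ρ n ω).z v)
    (h2 : |y - b| ≤ n) (hRl : R + 2 ≤ 4 * l) (hr : R + n + 2 ≤ r) (hbr : |b - x| + r ≤ ρ)
    (hbR : |b - x| + R' ≤ ρ) (hN : NR S (hit S.D S.e0 (Lo x ρ (4 * n)) ω) b r R' ω) :
    ∀ s : Pt, (∃ i ≤ (nxt S x ρ n ω).m, bk c (st (nxt S x ρ n ω).e0 (nxt S x ρ n ω).z i) = s) →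
      s ∈ Wn y R → 4 * n ≤ s.2 ∧
        PConn (cs c ξ ∩ ↑(hbF b R') ∩ {v | 4 * n ≤ v.2}) Set.univ
          (bk c (Sum.inr (y, 4 * n - 1))) s := by
  rw [abs_le] at h2
  have hbx1 := le_abs_self (b - x)
  have hbx2 := neg_abs_le (b - x)
  have hLo : ∀ q ∈ Lo x ρ (4 * n), q ∈ S.F := fun q hq =>
    hT.fresh q ⟨hq.1, hq.2.1, hq.2.2.1, by have := hq.2.2.2; omega⟩
  obtain ⟨hm, hst⟩ := nxt_st hT.st hLo hω hξ
  set N := hit S.D S.e0 (Lo x ρ (4 * n)) ω with hNd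
  rintro s ⟨i, hi, rfl⟩ hs
  rw [hm] at hi
  have hi1 : st (nxt S x ρ n ω).e0 (nxt S x ρ n ω).z i = st S.e0 ω i := (hst i hi).1
  rw [hi1] at hs ⊢
  obtain ⟨w1, w2, w3, w4⟩ := hs
  have hc := cor_bk c (st S.e0 ω i)
  obtain ⟨c1, c2⟩ := hc
  by_cases him : i < S.m
  · exfalso
    have h3 := st_m (S := S) ω i him.le
    rw [cf_self hω] at h3
    have h4 := H318.Bs.hit_min (D := S.D) (e0 := S.e0) (A := ↑S.F) (ξ := S.z) him
    rw [← h3] at h4
    have h5 : 0 ≤ (hdv (st S.e0 ω i)).2 ∨ (hdv (st S.e0 ω i)).2 = -1 := by omega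
    rcases h5 with h5 | h5
    · refine h4.1 (Finset.mem_coe.2 (hT.fresh _ ⟨?_, ?_, h5, ?_⟩)) <;> omega
    · refine hT.flat.not (hdv (st S.e0 ω i)).1 (by omega) (by omega) ?_
      rw [← h5]
      exact h4.2
  · have hend : st S.e0 ω N = Sum.inr (y, 4 * n - 1) := hH
    -- the square at time `i` is above the side
    have hi0 : hdv (st S.e0 ω i) ∈ H318.HB b r := by
      have h5 : 0 ≤ (hdv (st S.e0 ω i)).2 := by
        by_contra hcon
        have h6 : (hdv (st S.e0 ω i)).2 = -1 := by omega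
        rcases hi.lt_or_eq with h3 | h3
        · refine hT.flat.not (hdv (st S.e0 ω i)).1 (by omega) (by omega) ?_
          rw [← h6]
          exact (H318.Bs.hit_min h3).2
        · rw [h3, hend] at h6
          have hev : hdv (Sum.inr (y, 4 * n - 1)) = (y, 4 * n - 1) ∨
              hdv (Sum.inr (y, 4 * n - 1)) = (y, 4 * n - 1 + 1) := by
            simp only [hdv]
            split_ifs <;> simp
          rcases hev with h7 | h7 <;> rw [h7] at h6 <;> dsimp only at h6 <;> omega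
      exact ⟨by omega, by omega, h5, by omega⟩
    have hsq : ∀ k, i ≤ k → k < N → 4 * n ≤ (hdv (st S.e0 ω k)).2 ∧
        hdv (st S.e0 ω k) ∈ hbF b R' := by
      intro k hk1 hk2
      have h3 := hN i (not_lt.1 him) hi hi0 k hk1 hk2.le
      have h4 := (H318.Bs.hit_min hk2).1
      obtain ⟨a1, a2, a3, a4⟩ := h3
      have h5 : 4 * n ≤ (hdv (st S.e0 ω k)).2 := by
        by_contra hcon
        exact h4 ⟨by omega, by omega, a3, by omega⟩
      exact ⟨h5, mem_hbF.2 ⟨by omega, by omega, a3, by omega⟩⟩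
    constructor
    · rcases hi.lt_or_eq with h3 | h3
      · have := (hsq i le_rfl h3).1
        omega
      · rw [h3, hend]
        cases c
        · show 4 * n ≤ (rs (Sum.inr (y, 4 * n - 1))).2
          simp only [rs]
          split_ifs <;> simp
        · show 4 * n ≤ (ls (Sum.inr (y, 4 * n - 1))).2
          simp only [ls]
          split_ifs <;> simp
    · have h3 := strand_path (b := c) (ξ := ξ) (g := st S.e0 ξ i) (N := N - i)
        (A := (hbF b R').filter fun v => 4 * n ≤ v.2) (fun k hk => by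
          rw [← H318.Bs.st_add, (hst (i + k) (by omega)).2]
          obtain ⟨h4, h5⟩ := hsq (i + k) (by omega) (by omega)
          exact Finset.mem_filter.2 ⟨h5, h4⟩)
      rw [← H318.Bs.st_add, Nat.add_sub_cancel' hi, (hst N le_rfl).2, (hst i hi).2, hend] at h3
      refine h3.symm.mono ?_ subset_rfl
      rintro v ⟨hv1, hv2⟩
      have hv3 := Finset.mem_filter.1 (Finset.mem_coe.1 hv2)
      exact ⟨⟨hv1, Finset.mem_coe.2 hv3.1⟩, hv3.2⟩

/-- **the gate**, from the tail of a state whose near bank sites are joined to the tip -/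
theorem gate' (hK3 : 16 ≤ K3) (hΛ : 2 ≤ Λ) (hK : 20 * K4 Λ K3 + 20 ≤ K) (hn : 1 ≤ n)
    (hyx : |y - x| ≤ 2 * n) (hT' : TC S n y ρ)
    (hnear : ∀ (c : Bool) (s : Pt), (∃ i ≤ S.m, bk c (st S.e0 S.z i) = s) →
      s ∈ Wn y (K4 Λ K3 * n) → 4 * n ≤ s.2 ∧
        PConn (cs c ξ ∩ ↑(hbF x (K * n)) ∩ {v | 4 * n ≤ v.2}) Set.univ
          (bk c (Sum.inr (y, 4 * n - 1))) s)
    (hL : TL S K3 K Λ x y n ξ) :
    Gt K3 K x n ξ (Sum.inr (y, 4 * n - 1)) ∧ ArE K3 K x n ξ (Sum.inr (y, 4 * n - 1)) ∧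
      ArW K3 K x n ξ (Sum.inr (y, 4 * n - 1)) := by
  obtain ⟨⟨s, p, ls1, lp, l1, l2, lc⟩, ⟨s', p', rs1, rp, r1, r2, rc⟩, he, hw, -⟩ := hL
  have hyx' := abs_le.1 hyx
  -- the radii
  obtain ⟨a, ha⟩ : ∃ a, a = (K3 + 8) * n := ⟨_, rfl⟩
  have ha1 : 24 * n ≤ a := by
    rw [ha]
    nlinarith
  have hab : a ≤ Λ * a := by nlinarith
  have hbc : Λ * a ≤ Λ * (Λ * a) := by nlinarith
  have hc4 : Λ * (Λ * a) = K4 Λ K3 * n := by
    rw [ha]
    unfold K4
    ring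
  have hKn : 20 * (K4 Λ K3 * n) + 20 * n ≤ K * n := by nlinarith
  have hKl : n ≤ K * n := by omega
  rw [← ha] at he hw l1 l2 lc r1 r2 rc
  obtain ⟨⟨p1, e1, e2, e3, e4⟩, t1, f1, f2⟩ := arms (b := true) (x := x) (K := K) (K3 := K3)
    (r := a) (R := Λ * (Λ * a)) (e := Sum.inr (y, 4 * n - 1)) (ξ := ξ) hn hyx (by omega) ha.ge
    (by omega) (by omega) (by rw [hc4]; exact hnear true) ⟨s, p, ls1, lp, by
      simp only [al, if_true]
      omega, by
      simp only [be, if_true]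
      omega, lc⟩ he
  obtain ⟨⟨p2, g1, g2, g3, g4⟩, t2, k1, k2⟩ := arms (b := false) (x := x) (K := K) (K3 := K3)
    (r := a) (R := Λ * (Λ * a)) (e := Sum.inr (y, 4 * n - 1)) (ξ := ξ) hn hyx (by omega)
    ha.ge (by omega) (by omega) (by rw [hc4]; exact hnear false) ⟨s', p', rs1, rp, by
      simp only [al, Bool.false_eq_true, if_false]
      omega, by
      simp only [be, Bool.false_eq_true, if_false]
      omega, by
      rw [← opc]
      exact rc⟩ hw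
  simp only [al, be, if_true, Bool.false_eq_true, if_false] at e2 e3 g2 g3
  refine ⟨⟨⟨y, rfl, ?_, by omega⟩, ⟨p1, e1, by omega, e4⟩, ⟨p2, g1, by omega, ?_⟩⟩,
    ⟨t1, ?_, f2⟩, ⟨t2, ?_, ?_⟩⟩
  · have := hT'.ev
    rw [Int.even_iff] at this
    rw [Int.odd_iff]
    omega
  · unfold Dc
    rw [opc]
    exact g4
  · rw [f1]
    simp only [fe, if_true]
    exact le_rfl
  · rw [k1]
    simp only [fe, Bool.false_eq_true, if_false]
    omega
  · unfold Dc
    rw [opc]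
    exact k2

/-- **the event of `GREF`** at a window without return -/
theorem ge_of_nr {ρ2 : ℤ} (hK3 : 16 ≤ K3) (hΛ : 2 ≤ Λ) (hK : 20 * K4 Λ K3 + 20 ≤ K) (hn : 1 ≤ n)
    (hl1 : 1 ≤ l') (hl4 : 4 * l' ≤ n) (hnl : n ≤ l) (hρ : 4 * l ≤ ρ) (hT : TC S l x ρ)
    (hω : ∀ v, v ∉ S.F → ω v = S.z v)
    (hH : st S.e0 ω (hit S.D S.e0 (Lo x ρ (4 * n)) ω) = Sum.inr (y, 4 * n - 1))
    (hξ : ∀ v, v ∉ (nxt S x ρ n ω).F → ξ v = (nxt S x ρ n ω).z v)
    (h2 : |y - b| ≤ n) (hRl : K4 Λ K3 * n + 2 ≤ 4 * l) (hr : K4 Λ K3 * n + n + 2 ≤ r)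
    (hbr : |b - x| + r ≤ ρ) (hbR : |b - x| + K * n ≤ ρ)
    (hN : NR S (hit S.D S.e0 (Lo x ρ (4 * n)) ω) b r (K * n) ω)
    (hρ2 : |y - x| + ρ2 ≤ ρ) (hK2 : 3 * (K * n) ≤ ρ2)
    (hL : TL (nxt S x ρ n ω) K3 K Λ b y n ξ) : ξ ∈ H166Q.GE K3 K b n l' := by
  have hK4 : K3 + 8 ≤ K4 Λ K3 := by
    unfold K4
    nlinarith [mul_nonneg (show (0 : ℤ) ≤ Λ - 2 by omega) (show (0 : ℤ) ≤ K3 + 8 by omega)]
  have hKn : n ≤ K * n := by nlinarith
  have hT' : TC (nxt S x ρ n ω) n y ρ2 := tcrv1 hn hnl hρ hT hω hH hρ2 (by omega)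
  have h2' := abs_le.1 h2
  have hyb : |y - b| ≤ 2 * n := abs_le.2 ⟨by omega, by omega⟩
  obtain ⟨g1, g2, g3⟩ := gate' hK3 hΛ hK hn hyb hT' (fun c => bank_near' hT hn hnl hω hH hξ h2
    (R := K4 Λ K3 * n) hRl hr hbr hbR hN) hL
  exact ⟨_, g1, g2, g3, ctr_tc hn hK3 (by omega) hl1 hl4 hyb hK2 hT' hξ g1 hL.2.2.2.2⟩

/-- **a return gives three arms** -/
theorem thr_of_not_nr (hn : 1 ≤ n) (_hρ : 4 * l ≤ ρ) (hT : TC S l x ρ)
    (hH : st S.e0 ω (hit S.D S.e0 (Lo x ρ (4 * n)) ω) = Sum.inr (y, 4 * n - 1))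
    (h2 : |y - b| ≤ n) (hr : 4 * n ≤ r) (hrR : r < R) (hRρ : |b - x| + R + 1 ≤ ρ)
    (h : ¬ NR S (hit S.D S.e0 (Lo x ρ (4 * n)) ω) b r R ω) :
    H365.ThrS (b, 0) (r + 1) R ω := by
  classical
  rw [abs_le] at h2
  have hbx1 := le_abs_self (b - x)
  have hbx2 := neg_abs_le (b - x)
  have hbx3 := abs_nonneg (b - x)
  set N := hit S.D S.e0 (Lo x ρ (4 * n)) ω with hNd
  have hev : hdv (st S.e0 ω N) = (y, 4 * n - 1) ∨ hdv (st S.e0 ω N) = (y, 4 * n) := by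
    rw [hH]
    simp only [hdv]
    split_ifs <;> simp
  have hNB : hdv (st S.e0 ω N) ∈ H318.HB b r := by
    rcases hev with h3 | h3 <;> rw [h3] <;>
      exact ⟨by dsimp only; omega, by dsimp only; omega, by dsimp only; omega,
        by dsimp only; omega⟩
  have hsub : ∀ v : ℤ × ℤ, v ∈ H318.HB b r → v ∈ H318.HB b R := fun v hv => by
    obtain ⟨a1, a2, a3, a4⟩ := hv
    exact ⟨by omega, by omega, a3, by omega⟩
  -- everything until the entrance is in the domain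
  have hD : ∀ k ≤ N, hdv (st S.e0 ω k) ∈ S.D := by
    intro k hk
    rcases hk.lt_or_eq with h3 | h3
    · exact (H318.Bs.hit_min h3).2
    · rw [h3]
      obtain ⟨a1, a2, a3, a4⟩ := hNB
      exact hT.flat'.mem _ ⟨by omega, by omega, a3, by omega⟩
  have hrow : ∀ k ≤ N, b - R - 1 ≤ (hdv (st S.e0 ω k)).1 → (hdv (st S.e0 ω k)).1 ≤ b + R + 1 →
      -1 ≤ (hdv (st S.e0 ω k)).2 → 0 ≤ (hdv (st S.e0 ω k)).2 := by
    intro k hk h3 h4 h5
    by_contra hcon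
    have h6 : (hdv (st S.e0 ω k)).2 = -1 := by omega
    refine hT.flat'.not (hdv (st S.e0 ω k)).1 (by omega) (by omega) ?_
    rw [← h6]
    exact hD k hk
  have hstep : ∀ k, ((hdv (st S.e0 ω (k + 1))).1 = (hdv (st S.e0 ω k)).1 ∧
      ((hdv (st S.e0 ω (k + 1))).2 = (hdv (st S.e0 ω k)).2 + 1 ∨
      (hdv (st S.e0 ω (k + 1))).2 = (hdv (st S.e0 ω k)).2 - 1)) ∨
      ((hdv (st S.e0 ω (k + 1))).2 = (hdv (st S.e0 ω k)).2 ∧
      ((hdv (st S.e0 ω (k + 1))).1 = (hdv (st S.e0 ω k)).1 + 1 ∨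
      (hdv (st S.e0 ω (k + 1))).1 = (hdv (st S.e0 ω k)).1 - 1)) := by
    intro k
    rw [H318.Bs.st_succ]
    exact H318.hdv_nx ω _
  -- the upper part of the domain
  have hFl : H365.Fl (S.D.filter fun v => 0 ≤ v.2) (b, 0) (R + 1) := by
    intro v hv
    rw [H365.nm_le'] at hv
    simp only [Prod.fst_sub, Prod.snd_sub] at hv
    rw [Finset.mem_filter]
    constructor
    · exact fun h3 => h3.2
    · intro h3
      dsimp only at h3
      exact ⟨hT.flat'.mem _ ⟨by omega, by omega, h3, by omega⟩, h3⟩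
  unfold NR at h
  push Not at h
  obtain ⟨i, hi1, hi2, hi3, k, hk1, hk2, hk3⟩ := h
  -- the first exit
  have hex : ∃ t, i ≤ t ∧ hdv (st S.e0 ω t) ∉ H318.HB b R := ⟨k, hk1, hk3⟩
  set J := Nat.find hex with hJd
  obtain ⟨hJ1, hJ2⟩ := Nat.find_spec hex
  have hJk : J ≤ k := Nat.find_min' hex ⟨hk1, hk3⟩
  have hJm : ∀ t, i ≤ t → t < J → hdv (st S.e0 ω t) ∈ H318.HB b R := by
    intro t h3 h4
    have h5 := Nat.find_min hex h4
    push Not at h5
    exact h5 h3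
  rw [← hJd] at hJ1 hJ2
  have hiJ : i < J := by
    rcases hJ1.lt_or_eq with h3 | h3
    · exact h3
    · rw [← h3] at hJ2
      exact absurd (hsub _ hi3) hJ2
  have hJ0 : 0 ≤ (hdv (st S.e0 ω J)).2 ∧ b - R - 1 ≤ (hdv (st S.e0 ω J)).1 ∧
      (hdv (st S.e0 ω J)).1 ≤ b + R + 1 ∧ (hdv (st S.e0 ω J)).2 ≤ R + 1 := by
    obtain ⟨a1, a2, a3, a4⟩ := hJm (J - 1) (by omega) (by omega)
    have h3 := hstep (J - 1)
    rw [show J - 1 + 1 = J by omega] at h3
    have h4 := hrow J (by omega) (by omega) (by omega) (by omega)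
    exact ⟨h4, by omega, by omega, by omega⟩
  have hfar : ∀ t, 0 ≤ (hdv (st S.e0 ω t)).2 → hdv (st S.e0 ω t) ∉ H318.HB b R →
      R < nm (hdv (st S.e0 ω t) - (b, 0)) := by
    intro t h3 h4
    by_contra hcon
    have h5 := H365.nm_le'.1 (not_lt.1 hcon)
    simp only [Prod.fst_sub, Prod.snd_sub] at h5
    exact h4 ⟨by omega, by omega, h3, by omega⟩
  have hnear : ∀ t, hdv (st S.e0 ω t) ∈ H318.HB b r → nm (hdv (st S.e0 ω t) - (b, 0)) < r + 1 := by
    intro t h3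
    obtain ⟨a1, a2, a3, a4⟩ := h3
    have h5 : nm (hdv (st S.e0 ω t) - (b, 0)) ≤ r := by
      rw [H365.nm_le']
      simp only [Prod.fst_sub, Prod.snd_sub]
      omega
    omega
  -- the last exit
  set J' := Nat.findGreatest (fun t => hdv (st S.e0 ω t) ∉ H318.HB b R) N with hJd'
  have hJ2' : hdv (st S.e0 ω J') ∉ H318.HB b R :=
    Nat.findGreatest_spec (P := fun t => hdv (st S.e0 ω t) ∉ H318.HB b R)
      (show J ≤ N by omega) hJ2
  have hJN : J' ≤ N := Nat.findGreatest_le _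
  have hJm' : ∀ t, J' < t → t ≤ N → hdv (st S.e0 ω t) ∈ H318.HB b R := by
    intro t h3 h4
    have h5 := Nat.findGreatest_is_greatest (P := fun t => hdv (st S.e0 ω t) ∉ H318.HB b R) h3 h4
    exact not_not.1 h5
  have hJN' : J' < N := by
    rcases hJN.lt_or_eq with h3 | h3
    · exact h3
    · rw [h3] at hJ2'
      exact absurd (hsub _ hNB) hJ2'
  have hJ0' : 0 ≤ (hdv (st S.e0 ω J')).2 := by
    obtain ⟨a1, a2, a3, a4⟩ := hJm' (J' + 1) (by omega) (by omega)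
    have h3 := hstep J'
    exact hrow J' (by omega) (by omega) (by omega) (by omega)
  obtain ⟨j, hj, hc⟩ := H365.croI_of_run hFl (show r + 1 ≤ R by omega) (ω := ω) (e := st S.e0 ω i)
    (k := J - i) (fun t ht => by
      have e1 : (nx ω)^[t] (st S.e0 ω i) = st S.e0 ω (i + t) := (H318.Bs.st_add i t).symm
      rw [e1, Finset.mem_filter]
      refine ⟨hD _ (by omega), ?_⟩
      rcases (show i + t ≤ J by omega).lt_or_eq with h3 | h3
      · exact (hJm _ (by omega) h3).2.2.1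
      · rw [h3]; exact hJ0.1) (hnear i hi3) (by
      have e1 : (nx ω)^[J - i] (st S.e0 ω i) = st S.e0 ω (i + (J - i)) :=
        (H318.Bs.st_add i (J - i)).symm
      rw [e1, Nat.add_sub_cancel' hiJ.le]
      exact hfar J hJ0.1 hJ2)
  obtain ⟨j', hj', hc'⟩ := H365.croO_of_run hFl (show r + 1 ≤ R by omega) (ω := ω)
    (e := st S.e0 ω J') (k := N - J') (fun t ht => by
      have e1 : (nx ω)^[t] (st S.e0 ω J') = st S.e0 ω (J' + t) := (H318.Bs.st_add J' t).symm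
      rw [e1, Finset.mem_filter]
      refine ⟨hD _ (by omega), ?_⟩
      rcases Nat.eq_zero_or_pos t with h3 | h3
      · rw [h3]; exact hJ0'
      · exact (hJm' _ (by omega) (by omega)).2.2.1) (hfar J' hJ0' hJ2') (by
      have e1 : (nx ω)^[N - J'] (st S.e0 ω J') = st S.e0 ω (J' + (N - J')) :=
        (H318.Bs.st_add J' (N - J')).symm
      rw [e1, Nat.add_sub_cancel' hJN]
      exact hnear N hNB)
  exact ⟨_, _, H365.croI_ne_croO (show r + 1 ≤ R by omega) hc hc', Or.inl hc, Or.inr hc'⟩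

end Vale.Agent.P167.N.H461
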