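import Vale.Agent.P167.N.H461.GrefB
import Vale.Agent.P167.N.H461.GrefC
import Vale.Agent.P167.N.H166Q.Tail
import Vale.Agent.P167.N.H192.Q.Arm3

/-!
# P167, the range `0 < q < 1`, GREF: the probabilities
-/

set_option autoImplicit false

namespace Vale.Agent.P167.N.H461

open Finset Vale.Agent.P145.FB Vale.Agent.P167 Vale.Agent.P167.FK Vale.Agent.P167.FKA
open Vale.Agent.P167.H318 (St TA TB Flat PO Lo HB ex hit)
open Vale.Agent.P167.H318.UQ (An)
open Vale.Agent.P167.H192.Q (FlatA)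
open Vale.Agent.P167.H365 (ThrS)
open Vale.Agent.P167.H685.Q (EQ PQ Gq TC hbF mem_hbF Cs EQ_mono)
open Vale.Agent.P167.H166Q (GE nxt K4 OArcW DArcW)
open Vale.Agent.P167.H704.Q (zone_of)
open Vale.Agent.P167.N.H166Q (TL many ag1_of' dep_O dep_D disj_An)
open Vale.Agent.P167.N.MIX (RatS)

variable {Q : ℝ} {S : St} {l x y ρ n r R b : ℤ} {ω ξ : Cfg}

/-- **the entrance** -/
theorem ent_of_arcs (hS : TC S l x ρ) (hn : 1 ≤ n) (hnl : n ≤ l) (hρ : 4 * l ≤ ρ)
    (hR : 4 * l - 1 ≤ R) (hRρ : R < ρ) (hω : Cs S ω) (ho : OArcW S x (4 * l - 1) R ω)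
    (hd : DArcW S x (4 * l - 1) R ω) :
    ∃ y, H318.st S.e0 ω (hit S.D S.e0 (Lo x ρ (4 * n)) ω) = Sum.inr (y, 4 * n - 1) ∧
      |y - x| ≤ R := by
  have hZ := zone_of hS hn hnl hρ
  have hdt : hdv S.tip = (x, 4 * l - 1) := by
    rw [hS.tip]
    simp [hdv, hS.ev]
  obtain ⟨c1, ⟨y', c2, c3⟩, c4⟩ := N.H685.Q.conf (S1 := S) (u := x) (w := ρ) (h := 4 * n) (b := x)
    (r0 := 4 * l - 1) (R := R) (ξ := ω) hS.toOk (by omega) (by omega)
    (hS.gq.mono (by omega) (by omega))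
    (fun v hv => hS.flat'.mem v ⟨by have := hv.1; omega, by have := hv.2.1; omega, hv.2.2.1, by
      have := hv.2.2.2; omega⟩)
    (fun a h1 h2 => hS.flat'.not a (by omega) (by omega))
    (by rw [hdt]; exact ⟨by dsimp only; omega, by dsimp only; omega, by dsimp only; omega,
      by dsimp only; omega⟩)
    (fun v hv => hZ.fr v hv) (fun a h1 h2 => hS.flat.not a (by omega) (by omega)) hω ⟨ho, hd⟩
  have c2' := abs_le.1 c2
  set T := ex S.D S.e0 ω with hT
  set N := hit S.D S.e0 (Lo x ρ (4 * n)) ω with hN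
  have hexT : hdv (H318.st S.e0 ω T) ∉ S.D := H318.Bs.ex_spec hS.st ω
  have hy'D : ((y', (0 : ℤ)) : ℤ × ℤ) ∈ S.D := hS.flat'.mem _ ⟨by dsimp only; omega,
    by dsimp only; omega, by dsimp only; omega, by dsimp only; omega⟩
  have htl : tlv (H318.st S.e0 ω T) = (y', 0) := by
    rw [c3] at hexT ⊢
    by_cases hev : Even (y' + -1)
    · simp [tlv, hev]
    · exfalso
      apply hexT
      simp only [hdv, hev, if_false]
      simpa using hy'D
  have hTpos : 0 < T := by omega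
  have hlast : hdv (H318.st S.e0 ω (T - 1)) = (y', 0) := by
    rw [← H318.Bs.tlv_st, Nat.sub_add_cancel hTpos]
    exact htl
  have hNT : N ≤ T - 1 := H318.Bs.hit_le (Or.inl (by
    rw [hlast]
    exact ⟨by dsimp only; omega, by dsimp only; omega, by dsimp only; omega, by dsimp only; omega⟩))
  have hA : hdv (H318.st S.e0 ω N) ∈ Lo x ρ (4 * n) := by
    rcases H318.Bs.hit_spec hS.st (Lo x ρ (4 * n)) ω with h | h
    · exact h
    · exact absurd (H318.Bs.hit_min (show N < T by omega)).2 h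
  have hx : |(hdv (H318.st S.e0 ω N)).1 - x| ≤ R := by
    by_contra hcon
    refine c4 N (by omega) ⟨hA, ?_⟩
    rw [abs_le] at hcon
    omega
  have hcf : S.cf ω = ω := hω.cf
  have hX : S.X1 (Lo x ρ (4 * n)) ω = H318.st S.e0 ω N := by
    show H318.st S.e0 (S.cf ω) (hit S.D S.e0 (Lo x ρ (4 * n)) (S.cf ω)) = _
    rw [hcf]
  obtain ⟨t1, -⟩ := hZ.tip (ω := ω) (by rw [hX]; exact hA) (by rw [hX]; omega)
  rw [hX] at t1
  exact ⟨_, t1, hx⟩

/-- **the two arcs** -/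
theorem arcs_ge (hQ : Kit Q) : ∃ (Λ : ℤ) (c : ℝ), 4 ≤ Λ ∧ 0 < c ∧ ∀ (S : St) (l x ρ : ℤ), 1 ≤ l →
    Λ * (Λ * (4 * l - 1)) ≤ ρ → TC S l x ρ →
    c ≤ PQ Q S {ξ | OArcW S x (4 * l - 1) (Λ * (Λ * (4 * l - 1))) ξ ∧
      DArcW S x (4 * l - 1) (Λ * (Λ * (4 * l - 1))) ξ} := by
  obtain ⟨Λ, c, hΛ, hc, harc⟩ := hQ.arcw
  refine ⟨Λ, c ^ 2, hΛ, by positivity, fun S l x ρ hl hρ hT => ?_⟩
  obtain ⟨s1, hs1d⟩ : ∃ k, Λ * (4 * l - 1) = k := ⟨_, rfl⟩
  obtain ⟨s2, hs2d⟩ : ∃ k, Λ * s1 = k := ⟨_, rfl⟩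
  have hs1 : 4 * (4 * l - 1) ≤ s1 := by
    rw [← hs1d]; exact mul_le_mul_of_nonneg_right hΛ (by omega)
  have hs2 : 4 * s1 ≤ s2 := by
    rw [← hs2d]; exact mul_le_mul_of_nonneg_right hΛ (by omega)
  rw [hs1d, hs2d] at hρ ⊢
  have key := many (F := S.F) (z := S.z) hQ.pos hT.gq.good hc.le
    [(S.F ∩ An x (4 * l - 1) s1, {ξ | OArcW S x (4 * l - 1) s1 ξ}),
      (S.F ∩ An x s1 s2, {ξ | DArcW S x s1 s2 ξ})] (by
      intro X hX
      simp only [List.mem_cons, List.not_mem_nil, or_false] at hX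
      rcases hX with rfl | rfl
      · exact Finset.inter_subset_left
      · exact Finset.inter_subset_left) (by
      intro X hX
      simp only [List.mem_cons, List.not_mem_nil, or_false] at hX
      rcases hX with rfl | rfl
      · exact dep_O
      · exact dep_D) (by
      simp only [List.pairwise_cons, List.mem_cons, List.not_mem_nil, or_false, forall_eq]
      refine ⟨disj_An le_rfl, ?_⟩
      simp) (by
      intro X hX ζ hg hz
      simp only [List.mem_cons, List.not_mem_nil, or_false] at hX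
      rcases hX with rfl | rfl
      · exact (harc S x (4 * l - 1) s1 ζ (by omega) (by omega)
          (ag1_of' hT hl le_rfl (by omega) (by omega)) hg hz).1
      · exact (harc S x s1 s2 ζ (by omega) (by omega)
          (ag1_of' hT hl (by omega) (by omega) (by omega)) hg hz).2)
  have e6 : ∀ a b : Finset (ℤ × ℤ) × Set Cfg, [a, b].length = 2 := fun _ _ => rfl
  rw [e6] at key
  refine key.trans (Pr_mono hQ.pos fun ξ hξ => ?_)
  simp only [Set.mem_ofPred_eq, List.mem_cons, List.not_mem_nil, or_false, forall_eq_or_imp,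
    forall_eq] at hξ
  exact ⟨N.H166Q.OArcW.mono le_rfl (by omega) hξ.1, N.H166Q.DArcW.mono (by omega) le_rfl hξ.2⟩

/-- **three arms at a point of the side** -/
theorem thr_le {C α : ℝ} (hQ : 0 < Q) (h3 : ∀ (e : Bool) (D : Finset (ℤ × ℤ)) (η : Cfg) (b : ℤ × ℤ) (r R : ℤ)
    (G : Cfg → ℝ), Good η → FlatA e D η b r R → 1 ≤ r → r ≤ R → (∀ ω, 0 ≤ G ω) →
    Ind (H365.hA b r R) G →
    Ex Q D η (fun ω => G ω * {ω | ThrS b r R ω}.indicator 1 ω) ≤
      C * ((r : ℝ) / R) ^ (1 + α) * Ex Q D η G) (hS : TC S l x ρ) (hr : 1 ≤ r) (hrR : r ≤ R)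
    (hRl : R < 4 * l) (hρ : |b - x| + R ≤ ρ) :
    PQ Q S {ω | ThrS (b, 0) r R ω} ≤ C * ((r : ℝ) / R) ^ (1 + α) := by
  have hbx1 := le_abs_self (b - x)
  have hbx2 := neg_abs_le (b - x)
  have h1 := h3 false S.F S.z (b, 0) r R (fun _ => 1) hS.gq.good (fun v hv1 hv2 => by
    rw [H365.nm_le'] at hv2
    simp only [Prod.fst_sub, Prod.snd_sub] at hv2
    dsimp only
    refine ⟨⟨fun h => ?_, fun h => ?_⟩, fun h => ?_⟩
    · by_contra hc
      exact (hS.gq.row v (by omega) (by omega) (by omega) (by omega)).1 h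
    · exact hS.fresh v ⟨by omega, by omega, h, by omega⟩
    · exact (hS.gq.row v (by omega) (by omega) (by omega) (by omega)).2) hr hrR
    (fun _ => zero_le_one) (fun _ _ _ => rfl)
  rw [Ex_const hQ, mul_one] at h1
  refine le_trans (le_of_eq ?_) h1
  unfold PQ FK.Pr
  congr 1
  funext ω
  rw [one_mul]

/-- union bound -/
theorem pr_union {ι : Type*} (hQ : 0 < Q) (I : Finset ι) (A : ι → Set Cfg) {D : Finset (ℤ × ℤ)}
    {η : Cfg} : Pr Q D η {ω | ∃ i ∈ I, ω ∈ A i} ≤ ∑ i ∈ I, Pr Q D η (A i) := by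
  unfold FK.Pr
  rw [← Ex_sum]
  refine Ex_mono hQ fun T _ => ?_
  generalize cf D η T = ω
  by_cases h : ∃ i ∈ I, ω ∈ A i
  · rw [Set.indicator_of_mem (show ω ∈ {ω | ∃ i ∈ I, ω ∈ A i} from h)]
    obtain ⟨i, hi, hω⟩ := h
    have h1 := Finset.single_le_sum (f := fun i => (A i).indicator (1 : Cfg → ℝ) ω)
      (fun j _ => ind_nonneg (A j) ω) hi
    simp only [Set.indicator_of_mem hω] at h1
    exact h1
  · rw [Set.indicator_of_notMem (show ω ∉ {ω | ∃ i ∈ I, ω ∈ A i} from h)]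
    exact Finset.sum_nonneg fun j _ => ind_nonneg (A j) ω

end Vale.Agent.P167.N.H461
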