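import Vale.Agent.P167.N.H461.GrefD
import Vale.Agent.P167.N.MIX.RatK

/-!
# P167, the range `0 < q < 1`: **GREF**

`gref : Kit Q → GREF' Q`. The strand of a state with the tip at height `4 K' n` comes down to height
`4 n` at a point `y` with `|y - x| ≤ O(K' n)` (two arcs); `y` is in one of `O(K)` windows of width `2 n`.
With the exception of an event of probability `O(K (1 / K) ^ (1 + α))` (three arms at the centre of one
of the windows) the strand does not return to this window after an excursion of diameter `K n`, and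
then the tail gives the gate at this window. All windows have the same probability, by the comparison
with the reference box and translation invariance.
-/

set_option autoImplicit false

namespace Vale.Agent.P167.N.H461

open Finset Vale.Agent.P145.FB Vale.Agent.P167 Vale.Agent.P167.FK Vale.Agent.P167.FKA
open Vale.Agent.P167.H318 (St TA TB Flat PO Lo HB ex hit)
open Vale.Agent.P167.H318.UQ (An)
open Vale.Agent.P167.H192.Q (FlatA I3Q)
open Vale.Agent.P167.H365 (ThrS)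
open Vale.Agent.P167.H685.Q (EQ PQ Gq TC hbF mem_hbF Cs EQ_mono EQ_add)
open Vale.Agent.P167.H166Q (GE nxt K4 OArcW DArcW)
open Vale.Agent.P167.H704.Q (geloc)
open Vale.Agent.P167.N.H166Q (TL tail)
open Vale.Agent.P167.N.MIX (RatS)

variable {Q : ℝ} {S : St} {l x y ρ n r R b : ℤ} {ω ξ : Cfg}

theorem nr_imp {N : ℕ} {ω' : Cfg} (h : ∀ i ≤ N, H318.st S.e0 ω' i = H318.st S.e0 ω i)
    (h1 : NR S N b r R ω) : NR S N b r R ω' := by
  intro i hi1 hi2 hi3 k hk1 hk2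
  rw [h i hi2] at hi3
  rw [h k hk2]
  exact h1 i hi1 hi2 hi3 k hk1 hk2

/-- the constants -/
structure Cns (Q : ℝ) (Λ0 Λ L K3 K J n0 : ℤ) (c1 c2 B α : ℝ) : Prop where
  hΛ0 : 4 ≤ Λ0
  hΛ : 2 ≤ Λ
  hL : RatS Q L
  hK3 : 16 ≤ K3
  hK : 20 * K4 Λ K3 + 20 ≤ K
  hJ : J = 4 * (Λ0 * (Λ0 * (L * (L * (2 * K + 3)))))
  hn0 : 1 ≤ n0
  hc1 : 0 < c1
  hc2 : 0 < c2
  arc : ∀ (S : St) (l x ρ : ℤ), 1 ≤ l → Λ0 * (Λ0 * (4 * l - 1)) ≤ ρ → TC S l x ρ →
    c1 ≤ PQ Q S {ξ | OArcW S x (4 * l - 1) (Λ0 * (Λ0 * (4 * l - 1))) ξ ∧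
      DArcW S x (4 * l - 1) (Λ0 * (Λ0 * (4 * l - 1))) ξ}
  tl : ∀ (S : St) (x y ρ n : ℤ), n0 ≤ n → |y - x| ≤ 2 * n → 3 * (K * n) ≤ ρ → TC S n y ρ →
    c2 ≤ PQ Q S {ξ | TL S K3 K Λ x y n ξ}
  thr : ∀ (e : Bool) (D : Finset (ℤ × ℤ)) (η : Cfg) (b : ℤ × ℤ) (r R : ℤ)
    (G : Cfg → ℝ), Good η → FlatA e D η b r R → 1 ≤ r → r ≤ R → (∀ ω, 0 ≤ G ω) →
    Ind (H365.hA b r R) G →
    Ex Q D η (fun ω => G ω * {ω | ThrS b r R ω}.indicator 1 ω) ≤
      B * ((r : ℝ) / R) ^ (1 + α) * Ex Q D η G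
  sum : (2 * (J : ℝ) + 1) * (B * (((K4 Λ K3 + 4 : ℤ) : ℝ) / (K : ℝ)) ^ (1 + α)) ≤ c1 / 2

variable {Λ0 Λ L K3 K J n0 l' : ℤ} {c1 c2 B α : ℝ}

/-- **some window has a gate** -/
theorem some_window (hQ : Kit Q) (hc : Cns Q Λ0 Λ L K3 K J n0 c1 c2 B α) (hn : n0 ≤ n)
    (hl1 : 1 ≤ l') (hl4 : 4 * l' ≤ n) (hρ : 4 * (J * n) ≤ ρ)
    (hS : TC S (L * (L * (2 * K + 3)) * n) x ρ) :
    c2 * (c1 / 2) ≤ PQ Q S {ω | ∃ j ∈ Finset.Icc (-J) J, ω ∈ GE K3 K (x + 2 * n * j) n l'} := by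
  obtain ⟨hΛ0, hΛ, hL, hK3, hK, hJ, hn0, hc1, hc2, harc, htl, hthr, hsum⟩ := hc
  have hL2 := hL.two
  have hn1 : 1 ≤ n := hn0.trans hn
  obtain ⟨M, hM⟩ : ∃ M, M = K4 Λ K3 := ⟨_, rfl⟩
  have hM24 : 24 ≤ M := by
    rw [hM]
    unfold K4
    nlinarith [mul_nonneg (show (0 : ℤ) ≤ Λ - 2 by omega) (show (0 : ℤ) ≤ K3 + 8 by omega)]
  rw [← hM] at hK hsum
  -- the lengths
  obtain ⟨K', hK'⟩ : ∃ K', K' = L * (L * (2 * K + 3)) := ⟨_, rfl⟩
  rw [← hK'] at hJ hS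
  have hK8 : 8 * K + 12 ≤ K' := by
    rw [hK']
    have h1 : 2 * (2 * K + 3) ≤ L * (2 * K + 3) := mul_le_mul_of_nonneg_right hL2 (by omega)
    nlinarith
  have hJK : 64 * K' ≤ J := by
    rw [hJ]
    have h1 : 4 * K' ≤ Λ0 * K' := mul_le_mul_of_nonneg_right hΛ0 (by omega)
    have h2 : 4 * (Λ0 * K') ≤ Λ0 * (Λ0 * K') := mul_le_mul_of_nonneg_right hΛ0 (by omega)
    omega
  obtain ⟨k1, hk1⟩ : ∃ k, k = M * n := ⟨_, rfl⟩
  obtain ⟨k2, hk2⟩ : ∃ k, k = K * n := ⟨_, rfl⟩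
  obtain ⟨k3, hk3⟩ : ∃ k, k = K' * n := ⟨_, rfl⟩
  obtain ⟨k4, hk4⟩ : ∃ k, k = J * n := ⟨_, rfl⟩
  have a1 : 24 * n ≤ k1 := by rw [hk1]; exact mul_le_mul_of_nonneg_right hM24 (by omega)
  have a2 : 20 * k1 + 20 * n ≤ k2 := by
    rw [hk1, hk2]
    have := mul_le_mul_of_nonneg_right hK (show (0 : ℤ) ≤ n by omega)
    linarith
  have a3 : 8 * k2 + 12 * n ≤ k3 := by
    rw [hk2, hk3]
    have := mul_le_mul_of_nonneg_right hK8 (show (0 : ℤ) ≤ n by omega)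
    linarith
  have a4 : 64 * k3 ≤ k4 := by
    rw [hk3, hk4]
    have := mul_le_mul_of_nonneg_right hJK (show (0 : ℤ) ≤ n by omega)
    linarith
  obtain ⟨s2, hs2⟩ : ∃ s, s = Λ0 * (Λ0 * (4 * k3 - 1)) := ⟨_, rfl⟩
  have a5 : s2 ≤ k4 := by
    rw [hs2, hk4, hJ]
    have h1 : Λ0 * (Λ0 * (4 * k3 - 1)) = 4 * (Λ0 * (Λ0 * K')) * n - Λ0 * Λ0 := by
      rw [hk3]; ring
    rw [h1]
    nlinarith
  have a6 : 4 * k3 - 1 ≤ s2 := by
    rw [hs2]
    have h1 : 4 * (4 * k3 - 1) ≤ Λ0 * (4 * k3 - 1) := mul_le_mul_of_nonneg_right hΛ0 (by omega)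
    nlinarith
  rw [← hk4] at hρ
  rw [← hk3] at hS
  -- the small radius
  obtain ⟨r, hr⟩ : ∃ r, r = k1 + 4 * n - 1 := ⟨_, rfl⟩
  set N : Cfg → ℕ := fun ω => hit S.D S.e0 (Lo x ρ (4 * n)) ω with hN
  set H : Set Cfg := {ω | ∃ y, H318.st S.e0 ω (N ω) = Sum.inr (y, 4 * n - 1) ∧ |y - x| ≤ s2 ∧
    ∀ j ∈ Finset.Icc (-J) J, |y - (x + 2 * n * j)| ≤ n →
      NR S (N ω) (x + 2 * n * j) r (K * n) ω} with hH
  have hwin : ∀ j ∈ Finset.Icc (-J) J, |x + 2 * n * j - x| ≤ 2 * k4 := by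
    intro j hj
    rw [Finset.mem_Icc] at hj
    have h1 := mul_le_mul_of_nonneg_right hj.1 (show (0 : ℤ) ≤ n by omega)
    have h2 := mul_le_mul_of_nonneg_right hj.2 (show (0 : ℤ) ≤ n by omega)
    rw [abs_le, hk4]
    constructor <;> linarith
  -- probability of the past event
  have hPH : c1 / 2 ≤ PQ Q S H := by
    have h1 := harc S k3 x ρ (by omega) (by rw [← hs2]; omega) hS
    rw [← hs2] at h1
    have h2 : PQ Q S {ξ | OArcW S x (4 * k3 - 1) s2 ξ ∧ DArcW S x (4 * k3 - 1) s2 ξ} ≤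
        PQ Q S H + PQ Q S {ω | ∃ j ∈ Finset.Icc (-J) J,
          ω ∈ {ω | ThrS (x + 2 * n * j, 0) (r + 1) (K * n) ω}} := by
      show EQ Q S _ ≤ EQ Q S _ + EQ Q S _
      rw [← EQ_add]
      refine EQ_mono hQ.pos fun ω hω => ?_
      by_cases g1 : ω ∈ {ξ | OArcW S x (4 * k3 - 1) s2 ξ ∧ DArcW S x (4 * k3 - 1) s2 ξ}
      · obtain ⟨y, hy1, hy2⟩ := ent_of_arcs hS hn1 (by omega) (by omega) a6 (by omega) hω g1.1 g1.2
        rw [Set.indicator_of_mem g1]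
        by_cases g2 : ∀ j ∈ Finset.Icc (-J) J, |y - (x + 2 * n * j)| ≤ n →
            NR S (N ω) (x + 2 * n * j) r (K * n) ω
        · rw [Set.indicator_of_mem (show ω ∈ H from ⟨y, hy1, hy2, g2⟩)]
          exact le_add_of_nonneg_right (ind_nonneg _ _)
        · push Not at g2
          obtain ⟨j, hj, hyj, hnr⟩ := g2
          have h3 := hwin j hj
          rw [Set.indicator_of_mem (show ω ∈ {ω | ∃ j ∈ Finset.Icc (-J) J,
            ω ∈ {ω | ThrS (x + 2 * n * j, 0) (r + 1) (K * n) ω}} from ⟨j, hj,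
              thr_of_not_nr hn1 (by omega) hS hy1 hyj (by omega) (by rw [← hk2]; omega)
                (by rw [← hk2]; omega) hnr⟩)]
          exact le_add_of_nonneg_left (ind_nonneg _ _)
      · rw [Set.indicator_of_notMem g1]
        exact add_nonneg (ind_nonneg _ _) (ind_nonneg _ _)
    have h3 : PQ Q S {ω | ∃ j ∈ Finset.Icc (-J) J,
        ω ∈ {ω | ThrS (x + 2 * n * j, 0) (r + 1) (K * n) ω}} ≤
        ∑ j ∈ Finset.Icc (-J) J, B * (((r + 1 : ℤ) : ℝ) / ((K * n : ℤ) : ℝ)) ^ (1 + α) := by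
      refine (pr_union hQ.pos _ _).trans (Finset.sum_le_sum fun j hj => ?_)
      have h4 := hwin j hj
      exact thr_le hQ.pos hthr hS (by omega) (by rw [← hk2]; omega) (by rw [← hk2]; omega)
        (by rw [← hk2]; omega)
    have h4 : (((r + 1 : ℤ) : ℝ) / ((K * n : ℤ) : ℝ)) = (((M + 4 : ℤ) : ℝ) / (K : ℝ)) := by
      have e1 : r + 1 = (M + 4) * n := by rw [hr, hk1]; ring
      rw [e1]
      push_cast
      have hn' : (n : ℝ) ≠ 0 := by
        have : (0 : ℝ) < n := by exact_mod_cast (show (0 : ℤ) < n by omega)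
        exact this.ne'
      rw [mul_div_mul_right _ _ hn']
    rw [Finset.sum_const, h4, nsmul_eq_mul] at h3
    have h5 : ((Finset.Icc (-J) J).card : ℝ) = 2 * (J : ℝ) + 1 := by
      rw [Int.card_Icc]
      have h6 : ((J + 1 - -J).toNat : ℤ) = 2 * J + 1 := by
        rw [Int.toNat_of_nonneg (by omega)]
        ring
      exact_mod_cast h6
    rw [h5] at h3
    linarith
  -- strong Markov property
  have h6 : c2 * PQ Q S H ≤
      PQ Q S {ω | ∃ j ∈ Finset.Icc (-J) J, ω ∈ GE K3 K (x + 2 * n * j) n l'} := by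
    refine stop_nxt (x := x) (ρ := ρ) (n := n) hQ.pos hS.st hS.gq.good (fun ω ω' _ _ g1 g2 => ?_)
      fun ω hω hωH => ?_
    · have key : ∀ o o' : Cfg, N o' = N o → (∀ i ≤ N o, H318.st S.e0 o' i = H318.st S.e0 o i) →
          o ∈ H → o' ∈ H := by
        rintro o o' k1 k2 ⟨y, b1, b2, b3⟩
        refine ⟨y, by rw [k1, k2 _ le_rfl]; exact b1, b2, fun j hj hyj => ?_⟩
        rw [k1]
        exact nr_imp k2 (b3 j hj hyj)
      exact ⟨key ω' ω g1.symm fun i hi => (g2 i (by rw [← g1]; exact hi)).symm, key ω ω' g1 g2⟩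
    · obtain ⟨y, b1, b2, b3⟩ := hωH
      have b2' := abs_le.1 b2
      -- the window
      obtain ⟨j, hj1, hj2⟩ : ∃ j : ℤ, 2 * n * j ≤ y - x + n ∧ y - x + n < 2 * n * j + 2 * n := by
        refine ⟨(y - x + n) / (2 * n), ?_, ?_⟩
        · exact Int.mul_ediv_self_le (by omega)
        · exact Int.lt_mul_ediv_self_add (by omega)
      have hjJ : j ∈ Finset.Icc (-J) J := by
        rw [Finset.mem_Icc]
        have hJ0 : 1 ≤ J := by omega
        constructor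
        · by_contra hcon
          have h1 : j + J + 1 ≤ 0 := by omega
          have h2 : n * (j + J + 1) ≤ 0 := mul_nonpos_of_nonneg_of_nonpos (by omega) h1
          have h3 : 0 ≤ n * (J - 1) := by
            have : 0 ≤ J - 1 := by omega
            positivity
          nlinarith
        · by_contra hcon
          have h1 : 0 ≤ j - J - 1 := by omega
          have h2 : 0 ≤ n * (j - J - 1) := mul_nonneg (by omega) h1
          have h3 : 0 ≤ n * (J - 1) := by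
            have : 0 ≤ J - 1 := by omega
            positivity
          nlinarith
      have hyj : |y - (x + 2 * n * j)| ≤ n := abs_le.2 ⟨by omega, by omega⟩
      have h3 := hwin j hjJ
      have hTC : TC (nxt S x ρ n ω) n y (ρ - k4) :=
        tcrv1 hn1 (by omega) (by omega) hS hω b1 (by omega) (by omega)
      refine (htl (nxt S x ρ n ω) (x + 2 * n * j) y (ρ - k4) n hn (by omega)
        (by rw [← hk2]; omega) hTC).trans (EQ_mono hQ.pos fun ξ hξ => ?_)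
      by_cases hTL : TL (nxt S x ρ n ω) K3 K Λ (x + 2 * n * j) y n ξ
      · have h8 : ξ ∈ {ω | ∃ j ∈ Finset.Icc (-J) J, ω ∈ GE K3 K (x + 2 * n * j) n l'} :=
          ⟨j, hjJ, ge_of_nr (l := k3) (r := r) (ρ2 := ρ - k4) hK3 hΛ (by rw [← hM]; exact hK) hn1
            hl1 hl4 (by omega) (by omega) hS hω b1 hξ hyj (by rw [← hM, ← hk1]; omega)
            (by rw [← hM, ← hk1]; omega) (by omega) (by rw [← hk2]; omega) (b3 j hjJ hyj)
            (by omega) (by rw [← hk2]; omega) hTL⟩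
        rw [Set.indicator_of_mem h8]
        exact ind_le_one _ _
      · rw [Set.indicator_of_notMem (show ξ ∉ {ξ | TL (nxt S x ρ n ω) K3 K Λ (x + 2 * n * j) y n ξ}
          from hTL)]
        exact ind_nonneg _ _
  exact (mul_le_mul_of_nonneg_left hPH hc2.le).trans h6

/-- the choice of the ratio -/
theorem exists_ratio {A D M c : ℝ} (hα : 0 < α) (hc : 0 < c) (hM : 0 ≤ M) (k0 : ℤ) :
    ∃ K : ℤ, k0 ≤ K ∧ 1 ≤ K ∧ A * K * (D * (M / K) ^ (1 + α)) ≤ c := by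
  have h1 : Filter.Tendsto (fun k : ℕ => A * D * M ^ (1 + α) * ((k : ℝ) ^ (-α))) Filter.atTop
      (nhds 0) := by
    have h2 := (tendsto_rpow_neg_atTop hα).comp (tendsto_natCast_atTop_atTop (R := ℝ))
    have h3 := h2.const_mul (A * D * M ^ (1 + α))
    rw [mul_zero] at h3
    exact h3
  obtain ⟨k, hk1, hk2⟩ := ((h1.eventually_lt_const hc).and
    (Filter.eventually_ge_atTop (k0.toNat + 1))).exists
  refine ⟨k, ?_, by omega, ?_⟩
  · have := Int.self_le_toNat k0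
    omega
  · have hk : (0 : ℝ) < k := by exact_mod_cast (show 0 < k by omega)
    refine le_trans (le_of_eq ?_) hk1.le
    push_cast
    rw [Real.div_rpow hM hk.le, Real.rpow_add hk, Real.rpow_one, Real.rpow_neg hk.le]
    have h4 : (k : ℝ) ^ α ≠ 0 := (Real.rpow_pos_of_pos hk α).ne'
    field_simp

/-- **GREF** -/
theorem gref (hQ : Kit Q) : H704.Q.GREF' Q := by
  obtain ⟨Λ0, c1, hΛ0, hc1, harc⟩ := arcs_ge hQ
  obtain ⟨Λ, K3, hΛ, hK3, hT⟩ := tail hQ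
  obtain ⟨B, α, hB, hα, h3⟩ := N.H192.Q.i3q hQ
  obtain ⟨L, hL⟩ := hQ.ratS
  have hL2 := hL.two
  obtain ⟨M, hM⟩ : ∃ M, M = K4 Λ K3 := ⟨_, rfl⟩
  have hM24 : K3 + 8 ≤ M := by
    rw [hM]
    unfold K4
    nlinarith [mul_nonneg (show (0 : ℤ) ≤ Λ - 2 by omega) (show (0 : ℤ) ≤ K3 + 8 by omega)]
  obtain ⟨K, hK1, hK2, hK⟩ := exists_ratio (α := α) (A := 40 * (Λ0 * (Λ0 * (L * L))) + 1) (D := B)
    (M := ((M + 4 : ℤ) : ℝ)) (c := c1 / 2) hα (by linarith)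
    (by exact_mod_cast (show (0 : ℤ) ≤ M + 4 by omega)) (20 * M + 20)
  obtain ⟨J, hJ⟩ : ∃ J, J = 4 * (Λ0 * (Λ0 * (L * (L * (2 * K + 3))))) := ⟨_, rfl⟩
  obtain ⟨c2, n0, hc2, hn0, htl⟩ := hT K3 K le_rfl (by rw [← hM]; exact hK1)
  have hLL : 0 < Λ0 * (Λ0 * (L * L)) := by positivity
  have hJ0 : 0 ≤ J := by rw [hJ]; positivity
  have hsum : (2 * (J : ℝ) + 1) * (B * (((M + 4 : ℤ) : ℝ) / (K : ℝ)) ^ (1 + α)) ≤ c1 / 2 := by
    refine le_trans (mul_le_mul_of_nonneg_right ?_ ?_) hK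
    · have h1 : 2 * J + 1 ≤ (40 * (Λ0 * (Λ0 * (L * L))) + 1) * K := by
        have e1 : J = 4 * (Λ0 * (Λ0 * (L * L))) * (2 * K + 3) := by rw [hJ]; ring
        have h2 : 4 * (Λ0 * (Λ0 * (L * L))) * (2 * K + 3) ≤
            4 * (Λ0 * (Λ0 * (L * L))) * (5 * K) :=
          mul_le_mul_of_nonneg_left (by omega) (by positivity)
        nlinarith
      exact_mod_cast h1
    · have : (0 : ℝ) ≤ ((M + 4 : ℤ) : ℝ) := by exact_mod_cast (show (0 : ℤ) ≤ M + 4 by omega)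
      have h2 : (0 : ℝ) ≤ (K : ℝ) := by exact_mod_cast (show (0 : ℤ) ≤ K by omega)
      positivity
  have hcns : Cns Q Λ0 Λ L K3 K J n0 c1 c2 B α := ⟨hΛ0, hΛ, hL, hK3, by rw [← hM]; exact hK1, hJ,
    hn0, hc1, hc2, harc, htl, h3, by rw [← hM]; exact hsum⟩
  obtain ⟨K', hK'⟩ : ∃ K', K' = L * (L * (2 * K + 3)) := ⟨_, rfl⟩
  have hK'1 : 1 ≤ K' := by
    rw [hK']
    have h1 : 0 < L * (L * (2 * K + 3)) := by positivity
    omega
  refine ⟨K3, K, K', by omega, by omega, fun K0 hK0 => ⟨K' + J + 1, fun K1 hK1' =>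
    ⟨n0, c2 * (c1 / 2) / (8 * (2 * (J : ℝ) + 1)), hn0, ?_, ?_⟩⟩⟩
  · have : (0 : ℝ) ≤ J := by exact_mod_cast hJ0
    positivity
  intro S l x ρ n l' hn hl1 hl4 hl _ hρ hS
  have hn1 : 1 ≤ n := hn0.trans hn
  obtain ⟨k1, hk1⟩ : ∃ k, k = K' * n := ⟨_, rfl⟩
  obtain ⟨k2, hk2⟩ : ∃ k, k = J * n := ⟨_, rfl⟩
  have hk1n : n ≤ k1 := by
    rw [hk1]
    nlinarith
  have hk20 : 0 ≤ k2 := by rw [hk2]; positivity
  have hll : k1 + k2 + n ≤ l := by
    rw [hk1, hk2]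
    have h1 := mul_le_mul_of_nonneg_right hK1' (show (0 : ℤ) ≤ n by omega)
    have h2 : (K' + J + 1) * n = K' * n + J * n + n := by ring
    omega
  obtain ⟨S1, hS1⟩ := exists_low (l1 := k1) hS (by omega) (by omega) hρ
  have h1 := some_window hQ hcns (x := x) (S := S1) (ρ := ρ) hn hl1 hl4 (by rw [← hk2]; omega) (by
    rw [← hK', ← hk1]
    exact hS1)
  have h2 : PQ Q S1 {ω | ∃ j ∈ Finset.Icc (-J) J, ω ∈ GE K3 K (x + 2 * n * j) n l'} ≤
      ∑ _j ∈ Finset.Icc (-J) J, 8 * Pr Q (hbF x (K0 * n)) eta0 (GE K3 K x n l') := by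
    refine (pr_union hQ.pos _ _).trans (Finset.sum_le_sum fun j hj => ?_)
    rw [Finset.mem_Icc] at hj
    have hb : |x + 2 * n * j - x| ≤ 2 * k2 := by
      have h1 := mul_le_mul_of_nonneg_right hj.1 (show (0 : ℤ) ≤ n by omega)
      have h2 := mul_le_mul_of_nonneg_right hj.2 (show (0 : ℤ) ≤ n by omega)
      rw [abs_le, hk2]
      constructor <;> linarith
    have e0 : L * (L * (2 * (K * n) + 2 + 1)) ≤ k1 := by
      have h1 : 2 * (K * n) + 2 + 1 ≤ (2 * K + 3) * n := by nlinarith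
      have h2 : L * (2 * (K * n) + 2 + 1) ≤ L * ((2 * K + 3) * n) :=
        mul_le_mul_of_nonneg_left h1 (by omega)
      have h3 : L * (L * (2 * (K * n) + 2 + 1)) ≤ L * (L * ((2 * K + 3) * n)) :=
        mul_le_mul_of_nonneg_left h2 (by omega)
      have h4 : L * (L * ((2 * K + 3) * n)) = k1 := by rw [hk1, hK']; ring
      omega
    have e1 : k1 ≤ K0 * n := by
      rw [hk1]
      exact mul_le_mul_of_nonneg_right hK0 (by omega)
    have h3 := ref_off (b := x + 2 * n * j) (r := 2 * (K * n) + 2) (K0 := K0 * n) hQ hL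
      (by nlinarith) (e0.trans e1) (by omega) (by omega) hS1
      (fun ω => ind_nonneg (GE K3 K (x + 2 * n * j) n l') ω)
      (geloc K3 K (x + 2 * n * j) n l' (by omega) (by omega) hn1 hl1 hl4)
    have h4 := pr_ge_tr (Q := Q) (K3 := K3) (K := K) (x := x) (n := n) (l' := l')
      (a := 2 * n * j) (k := K0 * n) hQ.pos ⟨n * j, by ring⟩
    exact h3.trans (mul_le_mul_of_nonneg_left h4 (by norm_num))
  rw [Finset.sum_const, nsmul_eq_mul] at h2
  have h5 : ((Finset.Icc (-J) J).card : ℝ) = 2 * (J : ℝ) + 1 := by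
    rw [Int.card_Icc]
    have h6 : ((J + 1 - -J).toNat : ℤ) = 2 * J + 1 := by
      rw [Int.toNat_of_nonneg (by omega)]
      ring
    exact_mod_cast h6
  rw [h5] at h2
  have hJr : (0 : ℝ) ≤ J := by exact_mod_cast hJ0
  rw [div_le_iff₀ (by positivity)]
  show c2 * (c1 / 2) ≤ Pr Q (hbF x (K0 * n)) eta0 (GE K3 K x n l') * (8 * (2 * (J : ℝ) + 1))
  linarith

end Vale.Agent.P167.N.H461
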